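import Vale.Agent.P011.H261.M6
import Vale.Agent.P011.H380.Model
import Vale.Agent.P011.H487.GUni

/-!
# M6 in the letters of the base change : cocompactness of the kernel, `hup`, `hlim`
-/

set_option linter.unusedSectionVars false

open MeasureTheory Filter Topology Set Module
open scoped ENNReal NNReal Pointwise CompactlySupported

namespace Vale.Agent.P011.H261

open H544 H83 H380.Theta H380.SymBC H380.UnitsTop H380.UpBC H699

variable {k R A E ι : Type*} [Field k] [CommRing R] [TopologicalSpace R] [IsTopologicalRing R]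
  [Algebra k R] [DivisionRing A] [StarRing A] [Algebra k A] [StarLin k A] [Ring E] [StarRing E]
  [TopologicalSpace E] [IsTopologicalRing E] [Algebra R E] [Fintype ι] [DecidableEq ι]
  (B : BC k R A E ι)

section gam

variable {U : Type*} [Group U] (υ : U →* unitary A) {Lam : Subring A}

/-- The elements of `U` in the order. -/
def GamL (υ : U →* unitary A) (Lam : Subring A) (hst : ∀ x ∈ Lam, star x ∈ Lam) : Subgroup U where
  carrier := {g | ((υ g : unitary A) : A) ∈ Lam}
  mul_mem' := by
    intro a b ha hb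
    change ((υ (a * b) : unitary A) : A) ∈ Lam
    rw [map_mul]
    exact Lam.mul_mem ha hb
  one_mem' := by
    change ((υ 1 : unitary A) : A) ∈ Lam
    rw [map_one]
    exact Lam.one_mem
  inv_mem' := by
    intro a ha
    change ((υ a⁻¹ : unitary A) : A) ∈ Lam
    rw [map_inv]
    exact hst _ ha

theorem mem_GamL {hst : ∀ x ∈ Lam, star x ∈ Lam} {g : U} :
    g ∈ GamL υ Lam hst ↔ ((υ g : unitary A) : A) ∈ Lam := Iff.rfl

theorem countable_GamL [Countable Lam] (hst : ∀ x ∈ Lam, star x ∈ Lam)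
    (hυ : Function.Injective υ) : Countable (GamL υ Lam hst) := by
  have : Function.Injective (fun g : GamL υ Lam hst => (⟨((υ g : unitary A) : A), g.2⟩ : Lam)) := by
    intro g g' h
    have h' : ((υ (g : U) : unitary A) : A) = ((υ (g' : U) : unitary A) : A) :=
      congrArg (fun x : Lam => (x : A)) h
    exact Subtype.ext (hυ (Subtype.ext h'))
  exact this.countable

variable [Nontrivial R] [LocallyCompactSpace R] [T2Space R] [NoncompactSpace R]

/-- **The kernel of a colouring of the unitary group of an order is discrete and cocompact.** -/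
theorem exists_cocpt {O : Subring k} (hR : DetOne R)
    (hOd : ∀ K : Set R, IsCompact K → {c : k | c ∈ O ∧ algebraMap k R c ∈ K}.Finite)
    (hOc : ∃ K : Set R, IsCompact K ∧ ∀ r : R, ∃ c ∈ O, r - algebraMap k R c ∈ K)
    [Countable Lam] (H : IsOrd B.a O Lam) (hυ : Function.Bijective υ)
    {Q : Type*} [Group Q] [Finite Q] (c : U →* Q) :
    ∃ K : Set (unitary E), Cocpt ((c.ker ⊓ GamL υ Lam H.star_mem).map ((jU B).comp υ)) K := by
  classical
  have := B.continuousStar
  have := B.t2
  obtain ⟨C, hC, hcov⟩ := B.unitary_cocompact hR hOd hOc H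
  have hLat := B.lat hOd hOc H
  have hcl : IsClosedEmbedding (Subtype.val : unitary E → E) :=
    (isClosed_unitary E).isClosedEmbedding_subtypeVal
  set C' : Set (unitary E) := Subtype.val ⁻¹' C with hC'
  have hC'c : IsCompact C' := hcl.isCompact_preimage hC
  set Γ := GamL υ Lam H.star_mem with hΓ
  set p : U →* unitary E := (jU B).comp υ with hp
  -- representatives of the colours
  have hrep : ∀ q : Q, ∃ r : U, r ∈ Γ ∧ ((∃ g ∈ Γ, c g = q) → c r = q) := by
    intro q
    by_cases h : ∃ g ∈ Γ, c g = q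
    · obtain ⟨g, hg, hq⟩ := h
      exact ⟨g, hg, fun _ => hq⟩
    · exact ⟨1, Γ.one_mem, fun h' => absurd h' h⟩
  choose r hrΓ hr using hrep
  set K : Set (unitary E) := ⋃ q : Q, (fun x => p (r q) * x⁻¹) '' C' with hK
  have hKc : IsCompact K := by
    refine isCompact_iUnion fun q => hC'c.image ?_
    exact (continuous_const.mul continuous_inv)
  refine ⟨K, ?_, hKc, ?_, ?_⟩
  · have := countable_GamL υ H.star_mem hυ.1
    have h1 : Function.Surjective (fun g : (c.ker ⊓ Γ : Subgroup U) =>
        (⟨p g, g, g.2, rfl⟩ : (c.ker ⊓ Γ).map p)) := by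
      rintro ⟨_, g, hg, rfl⟩
      exact ⟨⟨g, hg⟩, rfl⟩
    have h2 : Countable (c.ker ⊓ Γ : Subgroup U) := by
      have : Function.Injective (fun g : (c.ker ⊓ Γ : Subgroup U) => (⟨g, g.2.2⟩ : Γ)) := by
        intro g g' h
        exact Subtype.ext (congrArg (fun x : Γ => (x : U)) h)
      exact this.countable
    exact h1.countable
  · intro x
    obtain ⟨w, hw, hw1, hw2, hxw⟩ := hcov ((x⁻¹ : unitary E) : E)
      (Unitary.star_mul_self_of_mem (x⁻¹).2) (Unitary.mul_star_self_of_mem (x⁻¹).2)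
    obtain ⟨g, hg⟩ := hυ.2 ⟨w, Unitary.mem_iff.2 ⟨hw1, hw2⟩⟩
    have hgΓ : g ∈ Γ := by
      rw [hΓ, mem_GamL, hg]
      exact hw
    have hpg : x⁻¹ * p g ∈ C' := by
      change ((x⁻¹ : unitary E) : E) * B.j ((υ g : unitary A) : A) ∈ C
      rw [hg]
      exact hxw
    refine ⟨p (r (c g) * g⁻¹), ⟨r (c g) * g⁻¹, ⟨?_, Γ.mul_mem (hrΓ _) (Γ.inv_mem hgΓ)⟩, rfl⟩, ?_⟩
    · change c (r (c g) * g⁻¹) = 1
      rw [map_mul, map_inv, hr (c g) ⟨g, hgΓ, rfl⟩, mul_inv_cancel]
    · refine mem_iUnion.2 ⟨c g, x⁻¹ * p g, hpg, ?_⟩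
      change p (r (c g)) * (x⁻¹ * p g)⁻¹ = p (r (c g) * g⁻¹) * x
      rw [map_mul, map_inv, mul_inv_rev, inv_inv, mul_assoc]
  · intro x
    have hfin := hLat.disc (Subtype.val '' ((fun y => y * x⁻¹) '' K))
      ((hKc.image (continuous_id.mul continuous_const)).image continuous_subtype_val)
    refine Set.Finite.of_finite_image (f := fun γ : ((c.ker ⊓ Γ).map p) => ((γ : unitary E) : E))
      (hfin.subset ?_) ?_
    · rintro _ ⟨⟨γ, g, hg, rfl⟩, hγ, rfl⟩
      refine ⟨⟨p g, ⟨p g * x, hγ, by simp⟩, rfl⟩, ?_⟩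
      exact ⟨((υ g : unitary A) : A), hg.2, rfl⟩
    · intro γ _ γ' _ h
      exact Subtype.ext (Subtype.ext h)

end gam

section final

open Matrix

variable {U : Type*} [Group U] (υ : U →* unitary A) {Lam : Subring A}
variable [Nontrivial R] [LocallyCompactSpace R] [T2Space R] [NoncompactSpace R]
  [SecondCountableTopology R]

/-- The Haar measures of `U(k_S)` are biinvariant. -/
theorem isMulRightInvariant_bc {O : Subring k} (hG : Good k R O)
    [Countable Lam] (H : IsOrd B.a O Lam) [MeasurableSpace (unitary E)] [BorelSpace (unitary E)]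
    (μ : Measure (unitary E)) [μ.IsHaarMeasure] : μ.IsMulRightInvariant := by
  have := B.continuousStar
  have := B.t2
  have := B.locallyCompact
  have := locallyCompact_unitary E
  have hsc := secondCountable B
  have : SecondCountableTopology (unitary E) :=
    TopologicalSpace.Subtype.secondCountableTopology (unitary E : Set E)
  obtain ⟨K, hK⟩ := exists_cocpt B (MonoidHom.id (unitary A)) hG.det hG.disc hG.coc H
    Function.bijective_id (1 : unitary A →* Multiplicative (ZMod 1))
  exact H487.isMulRightInvariant_of_cocpt μ hK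

/-- **`hup`** in the letters of the base change. -/
theorem hup_bc {O : Subring k} (hG : Good k R O)
    [Countable Lam] (H : IsOrd B.a O Lam) {w0 : A} (hw : ∀ x, w0 * x = x * w0)
    (hne : w0 ≠ star w0) (hυ : Function.Injective υ) (K : Set (unitary E)) (hK : IsCompact K) :
    ∃ C : ℝ, ∀ᶠ x in 𝓝[>] (1 : ℝ),
      Summable (fun y : U => (x - 1) * (H699.den Lam ((υ y : unitary A) : A) : ℝ) ^ (-x) *
        K.indicator 1 (jU B (υ y))) ∧
      ∑' y : U, (x - 1) * (H699.den Lam ((υ y : unitary A) : A) : ℝ) ^ (-x) *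
        K.indicator 1 (jU B (υ y)) ≤ C := by
  have := B.continuousStar
  have := B.t2
  have := B.locallyCompact
  have := locallyCompact_unitary E
  let _ : MeasurableSpace (unitary E) := borel _
  have _ : BorelSpace (unitary E) := ⟨rfl⟩
  let μ : Measure (unitary E) := Measure.haar
  obtain ⟨C, hC⟩ := hG.up B H hw hne μ υ hυ
  exact hup_of_up (den := fun y : U => (H699.den Lam ((υ y : unitary A) : A) : ℝ))
    (fun y => lt_of_lt_of_le one_pos (hG.one_le_den B H _)) hC K hK

/-- **`hlim`** in the letters of the base change: `c : U → Q` a colouring, `T` a map of the points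
commuting with the conjugations by `U(O_S)`, `ρ` a colour attained on `U(O_S)` arbitrarily close
to `SL_n(F)`. -/
theorem hlim_bc {O : Subring k} (hG : Good k R O)
    [Countable Lam] (H : IsOrd B.a O Lam) {w0 : A} (hw : ∀ x, w0 * x = x * w0)
    (hne : w0 ≠ star w0) (hυ : Function.Bijective υ)
    {Q : Type*} [Group Q] [Finite Q] (c : U →* Q) (T : U → U)
    (hT : ∀ g ∈ GamL υ Lam H.star_mem, ∀ y, T (g * y * g⁻¹) = g * T y * g⁻¹)
    {ι' F : Type*} [Fintype ι'] [DecidableEq ι'] [Nontrivial ι'] [Field F] [TopologicalSpace F]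
    [IsTopologicalRing F] [T2Space F] [LocallyCompactSpace F] [SigmaCompactSpace F]
    {ϖ : F} (hϖ : ϖ ≠ 0) (hpow : ∀ x : F, Tendsto (fun m : ℕ => x * ϖ ^ m) atTop (𝓝 0))
    (j : SpecialLinearGroup ι' F →* unitary E) (hj : Continuous j) (hn : j.range.Normal)
    {X0 : Set (unitary E)} (hX0 : IsOpen X0)
    (hsplit : ∀ p ∈ X0, ∃ h : Matrix ι' ι' F, IsUnit h.det ∧
      ∀ (s : SpecialLinearGroup ι' F) (z : ι' → F),
        (s : Matrix ι' ι' F) = h * diagonal z * h⁻¹ → Commute (j s) p)
    (ρ : Q) (hρ : ∀ O ∈ 𝓝 (1 : unitary E), ∃ g ∈ GamL υ Lam H.star_mem, c g = ρ ∧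
      ∃ o ∈ O, ∃ s : SpecialLinearGroup ι' F, jU B (υ g) = o * j s)
    (φ : C_c(unitary E, ℝ)) (hφ : tsupport φ ⊆ X0) (a a' : Q) :
    Tendsto (fun x : ℝ =>
      ∑' y : U, (x - 1) * (H699.den Lam ((υ y : unitary A) : A) : ℝ) ^ (-x) *
        ({y : U | c y = a ∧ c (T y) = a'}.indicator 1 y * φ (jU B (υ y))) -
      ∑' y : U, (x - 1) * (H699.den Lam ((υ y : unitary A) : A) : ℝ) ^ (-x) *
        ({y : U | c y = ρ * a * ρ⁻¹ ∧ c (T y) = ρ * a' * ρ⁻¹}.indicator 1 y *
          φ (jU B (υ y)))) (𝓝[>] 1) (𝓝 0) := by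
  have := B.continuousStar
  have := B.t2
  have := B.locallyCompact
  have := locallyCompact_unitary E
  have hsc := secondCountable B
  have : SecondCountableTopology (unitary E) :=
    TopologicalSpace.Subtype.secondCountableTopology (unitary E : Set E)
  let _ : MeasurableSpace (unitary E) := borel _
  have _ : BorelSpace (unitary E) := ⟨rfl⟩
  let μ : Measure (unitary E) := Measure.haar
  have hμ : μ.IsMulRightInvariant := isMulRightInvariant_bc B hG H μ
  obtain ⟨C, hC⟩ := hG.up B H hw hne μ υ hυ.1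
  have hcount : Countable (GamL υ Lam H.star_mem) := countable_GamL υ H.star_mem hυ.1
  obtain ⟨K, hK⟩ := exists_cocpt B υ hG.det hG.disc hG.coc H hυ c
  set Γ := GamL υ Lam H.star_mem with hΓ
  let i : Γ →* unitary E := ((jU B).comp υ).comp Γ.subtype
  let cc : Γ →* ConjAct Q :=
    ((ConjAct.toConjAct : Q ≃* ConjAct Q).toMonoidHom.comp c).comp Γ.subtype
  let e : Γ → U ≃ U := fun g => (Equiv.mulLeft (g : U)).trans (Equiv.mulRight (g : U)⁻¹)
  have he : ∀ (g : Γ) (y : U), e g y = g * y * (g : U)⁻¹ := fun g y => rfl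
  have h := hlim_of_conj' μ i cc hK (fun x hx => by
      obtain ⟨g, ⟨hg1, hg2⟩, rfl⟩ := hx
      refine ⟨⟨g, hg2⟩, ?_, rfl⟩
      change ConjAct.toConjAct (c g) = 1
      rw [show c g = 1 from hg1, map_one])
    (pos := fun y : U => jU B (υ y))
    (den := fun y : U => (H699.den Lam ((υ y : unitary A) : A) : ℝ))
    (fun y => lt_of_lt_of_le one_pos (hG.one_le_den B H _))
    (fun y => ((c y, c (T y)) : Q × Q)) e
    (fun g y => by
      rw [he, map_mul, map_mul, map_mul, map_mul, map_inv, map_inv]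
      rfl)
    (fun g y => by
      have h1 := den_mul (A := A) (Lam := Lam) H.star_mem (γ := υ g) (γ' := υ (g : U)⁻¹) g.2
        (Γ.inv_mem g.2) (υ y)
      rw [← map_mul, ← map_mul] at h1
      rw [he, h1])
    (fun g y => by
      rw [he, hT g g.2 y]
      simp only [map_mul, map_inv]
      rfl)
    hC hϖ hpow j hj hn hX0 hsplit (ConjAct.toConjAct ρ) (fun O hO => by
      obtain ⟨g, hg, hgρ, o, ho, s, hs⟩ := hρ O hO
      refine ⟨⟨g, hg⟩, ?_, o, ho, s, hs⟩
      change ConjAct.toConjAct (c g) = _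
      rw [hgρ]) φ hφ (a, a')
  have e1 : ∀ b b' : Q, {y : U | (c y, c (T y)) = (b, b')} = {y : U | c y = b ∧ c (T y) = b'} := by
    intro b b'
    ext y
    simp only [mem_ofPred_eq, Prod.mk.injEq]
  rw [pair_smul, e1, e1] at h
  exact h

end final

end Vale.Agent.P011.H261
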