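import Vale.Agent.P011.H219.NormalityC

/-!
# END: the final contradiction of the core

`mass Da μ D W φ a` is the average over the fundamental set `D` and over the types `y` (with
weights `W y`) of the number of points of colour `a` in the window `φ`.  We prove the exchange
formula, the passage from pointwise equidistribution (of the sums over all types) to masses, the
upper bound of the mass of a colour outside the normal colour sets, and the final contradiction.
-/

open MeasureTheory Filter Topology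
open scoped ENNReal NNReal Pointwise

namespace Vale.Agent.P011.H261

open H219

noncomputable section

variable {Γ H T Y V R : Type*} [Group Γ] [Group H] [Group R] [MulAction Γ T]
    [MulAction Γ Y] [MulAction H V]

open Classical in
/-- The weighted sum over all types of the window function, for the colour `a`. -/
def tot (Da : ColData Γ H T Y V R) (W : Y → ℝ≥0∞) (φ : V → ℝ≥0∞) (a : R) (h : H) : ℝ≥0∞ :=
  ∑' t : T, if Da.f t = a then W (Da.π t) * φ (h⁻¹ • Da.e t) else 0

theorem tsum_cnt (Da : ColData Γ H T Y V R) (W : Y → ℝ≥0∞) (φ : V → ℝ≥0∞) (a : R) (h : H) :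
    ∑' y, W y * Da.cnt φ h y a = tot Da W φ a h := by
  classical
  unfold tot ColData.cnt
  calc ∑' y, W y * ∑' t : T, (if Da.π t = y ∧ Da.f t = a then φ (h⁻¹ • Da.e t) else 0)
      = ∑' y, ∑' t : T, W y * (if Da.π t = y ∧ Da.f t = a then φ (h⁻¹ • Da.e t) else 0) := by
        simp_rw [ENNReal.tsum_mul_left]
    _ = ∑' t : T, ∑' y, W y * (if Da.π t = y ∧ Da.f t = a then φ (h⁻¹ • Da.e t) else 0) :=
        ENNReal.tsum_comm
    _ = _ := by
        apply tsum_congr
        intro t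
        rw [tsum_eq_single (Da.π t)]
        · by_cases ha : Da.f t = a
          · simp [ha]
          · simp [ha]
        · intro y hy
          rw [if_neg (by rintro ⟨h1, -⟩; exact hy h1.symm), mul_zero]

variable [TopologicalSpace H] [IsTopologicalGroup H] [MeasurableSpace H] [BorelSpace H]
  [MeasurableSpace V]

/-- The mass of the colour `a` in the window `φ`. -/
def mass (Da : ColData Γ H T Y V R) (μ : Measure H) (D : Set H) (W : Y → ℝ≥0∞)
    (φ : V → ℝ≥0∞) (a : R) : ℝ≥0∞ :=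
  ∑' y, W y * ∫⁻ h, Da.cnt φ h y a * fundWeight Da.ι D h ∂μ

variable {μ : Measure H}

omit [TopologicalSpace H] [IsTopologicalGroup H] [BorelSpace H] in
theorem measurable_tot [Countable T] (Da : ColData Γ H T Y V R)
    (hm : ∀ v : V, Measurable fun h : H => h⁻¹ • v) (W : Y → ℝ≥0∞) {φ : V → ℝ≥0∞}
    (hφ : Measurable φ) (a : R) : Measurable (tot Da W φ a) := by
  classical
  unfold tot
  refine Measurable.tsum fun t => ?_
  split_ifs
  · exact (hφ.comp (hm _)).const_mul _
  · exact measurable_const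

/-- **The exchange of sums.** -/
theorem mass_eq [Countable T] [Countable Y] [Countable Γ] (Da : ColData Γ H T Y V R)
    (hm : ∀ v : V, Measurable fun h : H => h⁻¹ • v) {D : Set H} (hD : MeasurableSet D)
    (W : Y → ℝ≥0∞) {φ : V → ℝ≥0∞} (hφ : Measurable φ) (a : R) :
    mass Da μ D W φ a = ∫⁻ h, tot Da W φ a h * fundWeight Da.ι D h ∂μ := by
  unfold mass
  have h1 : ∀ y, W y * ∫⁻ h, Da.cnt φ h y a * fundWeight Da.ι D h ∂μ =
      ∫⁻ h, W y * (Da.cnt φ h y a * fundWeight Da.ι D h) ∂μ := fun y => by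
    rw [lintegral_const_mul]
    exact (Da.measurable_cnt hm hφ y a).mul (measurable_fundWeight hD)
  simp_rw [h1]
  rw [← lintegral_tsum]
  · refine lintegral_congr fun h => ?_
    simp_rw [← mul_assoc]
    rw [ENNReal.tsum_mul_right, tsum_cnt]
  · intro y
    exact (((Da.measurable_cnt hm hφ y a).mul (measurable_fundWeight hD)).const_mul _).aemeasurable

/-- Pointwise equidistribution of the colours `a`, `b` over a fundamental set implies equality of
the masses up to `o(Z)`. -/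
theorem mass_sub_tendsto [Countable T] [Countable Y] [Countable Γ] (Da : ColData Γ H T Y V R)
    (hm : ∀ v : V, Measurable fun h : H => h⁻¹ • v) {D : Set H} (hD : MeasurableSet D)
    (hDfin : μ D ≠ ∞) {ι' : Type*} {𝓕 : Filter ι'} [𝓕.IsCountablyGenerated]
    (W : ι' → Y → ℝ≥0∞) {φ : V → ℝ≥0∞} (hφ : Measurable φ)
    (Z : ι' → ℝ≥0∞) (hZ0 : ∀ i, Z i ≠ 0) (hZt : ∀ i, Z i ≠ ∞) {C : ℝ≥0}
    (a b : R) (hua : ∀ i, ∀ h ∈ D, tot Da (W i) φ a h ≤ C * Z i)
    (hub : ∀ i, ∀ h ∈ D, tot Da (W i) φ b h ≤ C * Z i)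
    (heq : ∀ᵐ h ∂μ, h ∈ D → Tendsto (fun i => (tot Da (W i) φ a h / Z i).toReal -
      (tot Da (W i) φ b h / Z i).toReal) 𝓕 (𝓝 0)) :
    Tendsto (fun i => (mass Da μ D (W i) φ a / Z i).toReal -
      (mass Da μ D (W i) φ b / Z i).toReal) 𝓕 (𝓝 0) := by
  -- the weights
  set w : H → ℝ≥0∞ := fundWeight Da.ι D with hw
  have hwm : Measurable w := measurable_fundWeight hD
  have hwD : ∀ h, w h ≤ D.indicator 1 h := fundWeight_le D
  have hw1 : ∀ h, w h ≤ 1 := fun h => (hwD h).trans (by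
    by_cases hh : h ∈ D <;> simp [hh])
  have hw0 : ∀ h, h ∉ D → w h = 0 := fun h hh => by simpa [hh] using hwD h
  -- bounds
  have key : ∀ c : R, (∀ i, ∀ h ∈ D, tot Da (W i) φ c h ≤ C * Z i) → ∀ i,
      (mass Da μ D (W i) φ c / Z i).toReal =
        ∫ h, (tot Da (W i) φ c h / Z i * w h).toReal ∂μ ∧
      Integrable (fun h => (tot Da (W i) φ c h / Z i * w h).toReal) μ ∧
      ∀ h, (tot Da (W i) φ c h / Z i * w h).toReal ≤ D.indicator (fun _ => (C : ℝ)) h := by
    intro c hc i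
    have hb : ∀ h, tot Da (W i) φ c h / Z i * w h ≤ D.indicator (fun _ => (C : ℝ≥0∞)) h := by
      intro h
      by_cases hh : h ∈ D
      · rw [Set.indicator_of_mem hh]
        calc tot Da (W i) φ c h / Z i * w h ≤ (C * Z i) / Z i * 1 := by
              gcongr
              · exact hc i h hh
              · exact hw1 h
          _ = C := by rw [mul_one, ENNReal.mul_div_cancel_right (hZ0 i) (hZt i)]
      · simp [hw0 h hh]
    have hmeas : Measurable fun h => tot Da (W i) φ c h / Z i * w h :=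
      ((measurable_tot Da hm (W i) hφ c).div_const _).mul hwm
    have hlt : ∀ h, tot Da (W i) φ c h / Z i * w h < ∞ := fun h =>
      (hb h).trans_lt (by by_cases hh : h ∈ D <;> simp [hh])
    have hle : ∀ h, (tot Da (W i) φ c h / Z i * w h).toReal ≤ D.indicator (fun _ => (C : ℝ)) h := by
      intro h
      by_cases hh : h ∈ D
      · have := ENNReal.toReal_mono (by simp [hh]) (hb h)
        simpa [hh] using this
      · simp [hw0 h hh, hh]
    have hint : Integrable (fun h => (tot Da (W i) φ c h / Z i * w h).toReal) μ := by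
      refine Integrable.mono' (g := D.indicator (fun _ => (C : ℝ))) ?_
        hmeas.ennreal_toReal.aestronglyMeasurable (Eventually.of_forall fun h => ?_)
      · exact (integrable_indicator_iff hD).2 (integrableOn_const hDfin)
      · rw [Real.norm_eq_abs, abs_of_nonneg ENNReal.toReal_nonneg]
        exact hle h
    refine ⟨?_, hint, hle⟩
    rw [mass_eq Da hm hD (W i) hφ c, integral_toReal hmeas.aemeasurable
      (Eventually.of_forall hlt)]
    congr 1
    have hmm : Measurable fun h => tot Da (W i) φ c h * w h :=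
      (measurable_tot Da hm (W i) hφ c).mul hwm
    rw [div_eq_mul_inv, mul_comm, ← lintegral_const_mul _ hmm]
    refine lintegral_congr fun h => ?_
    rw [div_eq_mul_inv, ← mul_assoc, mul_comm (Z i)⁻¹]
  have h2 : ∀ i, (mass Da μ D (W i) φ a / Z i).toReal - (mass Da μ D (W i) φ b / Z i).toReal =
      ∫ h, ((tot Da (W i) φ a h / Z i * w h).toReal -
        (tot Da (W i) φ b h / Z i * w h).toReal) ∂μ := fun i => by
    rw [(key a hua i).1, (key b hub i).1, integral_sub (key a hua i).2.1 (key b hub i).2.1]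
  simp_rw [h2]
  have h3 : (0 : ℝ) = ∫ _h, (0 : ℝ) ∂μ := by simp
  rw [h3]
  refine tendsto_integral_filter_of_dominated_convergence
    (D.indicator (fun _ => (2 * C : ℝ))) ?_ ?_ ?_ ?_
  · exact Eventually.of_forall fun i =>
      ((key a hua i).2.1.sub (key b hub i).2.1).aestronglyMeasurable
  · refine Eventually.of_forall fun i => Eventually.of_forall fun h => ?_
    rw [Real.norm_eq_abs]
    refine (abs_sub _ _).trans ?_
    rw [abs_of_nonneg ENNReal.toReal_nonneg, abs_of_nonneg ENNReal.toReal_nonneg]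
    have h4 := (key a hua i).2.2 h
    have h5 := (key b hub i).2.2 h
    by_cases hh : h ∈ D
    · simp only [Set.indicator_of_mem hh] at h4 h5 ⊢
      linarith
    · simp only [Set.indicator_of_notMem hh] at h4 h5 ⊢
      linarith
  · exact (integrable_indicator_iff hD).2 (integrableOn_const hDfin)
  · filter_upwards [heq] with h hh
    by_cases hhD : h ∈ D
    · have h6 := (hh hhD).mul_const (w h).toReal
      rw [zero_mul] at h6
      refine h6.congr fun i => ?_
      rw [ENNReal.toReal_mul, ENNReal.toReal_mul]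
      ring
    · simp only [hw0 h hhD, mul_zero, ENNReal.toReal_zero, sub_self]
      exact tendsto_const_nhds

omit [MeasurableSpace V] in
/-- **Upper bound** of the mass of a colour which does not belong to the normal colour sets. -/
theorem mass_le [Countable Γ]
    (Da : ColData Γ H T Y V R) {D : Set H} (hD : MeasurableSet D)
    (W : Y → ℝ≥0∞) {φ : V → ℝ≥0∞} (a : R) {τ U B : ℝ≥0∞}
    (Bad : Y → Set H) (hBad : ∀ y, MeasurableSet (Bad y))
    (hU : ∀ y, W y ≠ 0 → ∀ h ∈ D, Da.cnt φ h y a ≤ U)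
    (hτ : ∀ y, W y ≠ 0 → ∀ h ∈ D, h ∉ Bad y → Da.cnt φ h y a ≤ τ)
    (hB : ∑' y, W y * ∫⁻ h in Bad y, fundWeight Da.ι D h ∂μ ≤ B) :
    mass Da μ D W φ a ≤ τ * (μ D * ∑' y, W y) + U * B := by
  set w : H → ℝ≥0∞ := fundWeight Da.ι D with hw
  have hwm : Measurable w := measurable_fundWeight hD
  have hwD : ∀ h, w h ≤ D.indicator 1 h := fundWeight_le D
  have hw0 : ∀ h, h ∉ D → w h = 0 := fun h hh => by simpa [hh] using hwD h
  have hwint : ∫⁻ h, w h ∂μ ≤ μ D := by
    calc ∫⁻ h, w h ∂μ ≤ ∫⁻ h, D.indicator 1 h ∂μ := lintegral_mono fun h => hwD h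
      _ = μ D := lintegral_indicator_one hD
  have hy : ∀ y, W y * ∫⁻ h, Da.cnt φ h y a * w h ∂μ ≤
      W y * (τ * μ D) + U * (W y * ∫⁻ h in Bad y, w h ∂μ) := by
    intro y
    by_cases hWy : W y = 0
    · simp [hWy]
    have h1 : ∫⁻ h, Da.cnt φ h y a * w h ∂μ ≤ τ * μ D + U * ∫⁻ h in Bad y, w h ∂μ := by
      calc ∫⁻ h, Da.cnt φ h y a * w h ∂μ
          ≤ ∫⁻ h, (τ * w h + U * (Bad y).indicator w h) ∂μ := by
            refine lintegral_mono fun h => ?_
            by_cases hh : h ∈ D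
            · by_cases hb : h ∈ Bad y
              · rw [Set.indicator_of_mem hb]
                calc Da.cnt φ h y a * w h ≤ U * w h := by gcongr; exact hU y hWy h hh
                  _ ≤ _ := le_add_self
              · calc Da.cnt φ h y a * w h ≤ τ * w h := by gcongr; exact hτ y hWy h hh hb
                  _ ≤ _ := le_self_add
            · simp [hw0 h hh]
        _ = τ * ∫⁻ h, w h ∂μ + U * ∫⁻ h in Bad y, w h ∂μ := by
            rw [lintegral_add_left (hwm.const_mul _), lintegral_const_mul _ hwm,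
              lintegral_const_mul _ (hwm.indicator (hBad y)), lintegral_indicator (hBad y)]
        _ ≤ _ := by gcongr
    calc W y * ∫⁻ h, Da.cnt φ h y a * w h ∂μ
        ≤ W y * (τ * μ D + U * ∫⁻ h in Bad y, w h ∂μ) := by gcongr
      _ = _ := by ring
  calc mass Da μ D W φ a ≤ ∑' y, (W y * (τ * μ D) + U * (W y * ∫⁻ h in Bad y, w h ∂μ)) :=
        ENNReal.tsum_le_tsum hy
    _ = τ * (μ D * ∑' y, W y) + U * ∑' y, W y * ∫⁻ h in Bad y, w h ∂μ := by
        rw [ENNReal.tsum_add, ENNReal.tsum_mul_right, ENNReal.tsum_mul_left]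
        ring
    _ ≤ _ := by gcongr

omit [MeasurableSpace V] in
theorem mass_le_const [Countable Γ] (Da : ColData Γ H T Y V R) {D : Set H}
    (hD : MeasurableSet D) (W : Y → ℝ≥0∞) {φ : V → ℝ≥0∞} (a : R) {U : ℝ≥0∞}
    (hU : ∀ y, W y ≠ 0 → ∀ h ∈ D, Da.cnt φ h y a ≤ U) :
    mass Da μ D W φ a ≤ U * (μ D * ∑' y, W y) := by
  have := mass_le (μ := μ) Da hD W a (τ := U) (U := U) (B := 0) (fun _ => ∅)
    (fun _ => MeasurableSet.empty) hU (fun y hy h hh _ => hU y hy h hh) (by simp)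
  simpa using this

end

section final

universe u v w

variable {Γ H : Type u} {G₀ : Type v} [Group Γ] [Countable Γ] [Group G₀] [Group H]
  [TopologicalSpace H] [IsTopologicalGroup H] [T2Space H]
  [LocallyCompactSpace H] [SecondCountableTopology H] [MeasurableSpace H] [BorelSpace H]
  {μ : Measure H} [SFinite μ] [μ.IsMulLeftInvariant] [IsFiniteMeasureOnCompacts μ]
  [μ.InnerRegularCompactLTTop]
variable [MeasurableSpace G₀] [MeasurableMul G₀] {μ₀ : Measure G₀}
  [SFinite μ₀] [μ₀.IsMulLeftInvariant]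
variable {j₀ : G₀ →* H} {Y : Type u} [MulAction Γ Y] [Countable Y]
variable {R : Type} [Group R] [Fintype R] [DecidableEq R]
variable {T V : Type*} [MulAction Γ T] [Countable T] [MulAction H V] [MeasurableSpace V]

/-- **END.**  The final contradiction: gap, approximation of the labels `P`, windows `φ j` with
volumes `Vol j`, linking for the colour `a ∈ P` in the normal colour sets, equidistribution of the
colours in `P`, and positivity of the mass of `P`. -/
theorem false_of_core (Da : ColData Γ H T Y V R)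
    (hm : ∀ v : V, Measurable fun h : H => h⁻¹ • v)
    {K : Set G₀} {C : ℝ≥0} (hgap : HasGap.{u} G₀ K C)
    (hμ₀ : μ₀ ≠ 0) (hj : Measurable j₀) (hN : j₀.range.Normal)
    (hq : ∀ g : G₀, MeasurePreserving (· * j₀ g) μ μ)
    {D : Set H} (hD : MeasurableSet D) (hDfin : μ D ≠ ∞) (hcov : ∀ h : H, ∃ γ : Γ, Da.ι γ * h ∈ D)
    (hfin : ∀ h : H, {γ : Γ | Da.ι γ * h ∈ D}.Finite)
    {W : ℕ → Y → ℝ≥0∞} (hW : ∀ i (γ : Γ) y, W i (γ • y) = W i y)
    (hWt : ∀ i, ∑' y, W i y ≠ ∞) (hW0 : ∀ i, ∑' y, W i y ≠ 0) (P : Finset R)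
    (happ : ∀ i, ∀ y : Y, W i y ≠ 0 → ∀ r ∈ P, ∀ O ∈ 𝓝 (1 : H), ∃ γ : Γ, γ • y = y ∧
      Da.c γ = r ∧ ∃ o ∈ O, ∃ g : G₀, Da.ι γ = o * j₀ g)
    {φ : ℕ → V → ℝ≥0∞} (hφ : ∀ j, Measurable (φ j)) (hmono : ∀ j v, φ j v ≤ φ (j + 1) v)
    (hK : ∀ j, ∀ k ∈ K, ∀ v, φ j v ≤ φ (j + 1) (j₀ k • v)) (τ : ℝ≥0∞)
    {J : ℕ} (hJ : 0 < J) {Vol : ℕ → ℝ≥0} (hVol : ∀ j < J, 0 < Vol j) {a : R} (ha : a ∈ P)
    {C₁ : ℝ≥0} (hup : ∀ j < J, ∀ y, ∀ h ∈ D, ∀ b ∈ P, Da.cnt (φ j) h y b ≤ C₁ * Vol j)
    {ε : ℝ≥0} (hτ : ∀ j < J, τ ≤ ε * Vol j)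
    (hlink : ∀ j < J, ∀ y, ∀ h ∈ D, (∀ r ∈ P, conjF r (Da.colSet (φ j) τ h y) =
      Da.colSet (φ j) τ h y) → a ∉ Da.colSet (φ j) τ h y)
    (heq : ∀ j < J, ∀ b ∈ P, ∀ᵐ h ∂μ, h ∈ D → Tendsto (fun i =>
      (tot Da (W i) (φ j) a h / ∑' y, W i y).toReal -
        (tot Da (W i) (φ j) b h / ∑' y, W i y).toReal) atTop (𝓝 0))
    {c₀ : ℝ≥0} (hpos : ∀ j < J, ∀ᶠ i in atTop, c₀ * Vol j * ∑' y, W i y ≤
      ∑ b ∈ P, mass Da μ D (W i) (φ j) b)
    (hnum : P.card * (ε * (μ D).toNNReal + C₁ * (P.card * (6 * (2 * C ^ 2 + 1) *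
      (Fintype.card R * (μ D).toNNReal / J)))) < c₀) : False := by
  classical
  set Z : ℕ → ℝ≥0∞ := fun i => ∑' y, W i y with hZ
  set mD : ℝ≥0 := (μ D).toNNReal with hmD
  have hmD' : (mD : ℝ≥0∞) = μ D := ENNReal.coe_toNNReal hDfin
  set κ : ℝ≥0 := P.card * (6 * (2 * C ^ 2 + 1) * (Fintype.card R * mD / J)) with hκ
  set θ : ℝ≥0 := ε * mD + C₁ * κ with hθ
  -- one good scale for every `i`
  have h1 : ∀ i, ∃ j < J, mass Da μ D (W i) (φ j) a ≤ θ * Vol j * Z i := by
    intro i
    have hA : μ D * ∑' y, W i y ≤ ((mD * (Z i).toNNReal : ℝ≥0) : ℝ≥0∞) := by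
      rw [ENNReal.coe_mul, hmD', ENNReal.coe_toNNReal (hWt i)]
    obtain ⟨j, hjJ, hb⟩ := normality_cnt Da hm hgap hμ₀ hj hN hq hD hcov hfin (hW i) P (happ i)
      hφ hmono hK τ hJ hA
    refine ⟨j, hjJ, ?_⟩
    have hbad : ∀ y, MeasurableSet {h | ∃ r ∈ P, conjF r (Da.colSet (φ j) τ h y) ≠
        Da.colSet (φ j) τ h y} := by
      intro y
      have h2 : {h | ∃ r ∈ P, conjF r (Da.colSet (φ j) τ h y) ≠ Da.colSet (φ j) τ h y} =
          ⋃ U ∈ {U : Finset R | ∃ r ∈ P, conjF r U ≠ U}, {h | Da.colSet (φ j) τ h y = U} := by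
        ext h
        simp
      rw [h2]
      exact MeasurableSet.biUnion (Set.to_countable _)
        fun U _ => Da.measurableSet_colSet hm (hφ j) τ y U
    refine (mass_le (μ := μ) Da hD (W i) a (τ := τ) (U := C₁ * Vol j) _ hbad
      (fun y _ h hh => hup j hjJ y h hh a ha) ?_ hb).trans ?_
    · intro y _ h hh hnb
      have h3 : a ∉ Da.colSet (φ j) τ h y := by
        refine hlink j hjJ y h hh fun r hr => ?_
        by_contra h4
        exact hnb ⟨r, hr, h4⟩
      rw [Da.mem_colSet, not_le] at h3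
      exact h3.le
    · have h5 : ((P.card * (6 * (2 * C ^ 2 + 1) * (Fintype.card R * (mD * (Z i).toNNReal) / J)) :
          ℝ≥0) : ℝ≥0∞) = κ * Z i := by
        have h7 : Z i = ((Z i).toNNReal : ℝ≥0∞) := (ENNReal.coe_toNNReal (hWt i)).symm
        rw [h7, ← ENNReal.coe_mul, hκ, ENNReal.toNNReal_coe]
        congr 1
        ring
      have h6 : (P.card : ℝ≥0∞) * (6 * (2 * (C : ℝ≥0∞) ^ 2 + 1) *
          ((Fintype.card R * (mD * (Z i).toNNReal) / J : ℝ≥0) : ℝ≥0∞)) = κ * Z i := by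
        rw [← h5]
        push_cast
        rfl
      rw [h6, ← hmD']
      calc τ * (mD * Z i) + C₁ * Vol j * (κ * Z i)
          ≤ (ε * Vol j) * (mD * Z i) + C₁ * Vol j * (κ * Z i) := by
            gcongr
            exact hτ j hjJ
        _ = θ * Vol j * Z i := by
            rw [hθ]
            push_cast
            ring
  -- a scale which is good infinitely often
  obtain ⟨j, hjJ, hfreq⟩ : ∃ j < J, ∃ᶠ i in atTop, mass Da μ D (W i) (φ j) a ≤
      θ * Vol j * Z i := by
    by_contra hcon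
    push Not at hcon
    have h2 : ∀ᶠ i in atTop, ∀ j ∈ Finset.range J, ¬ (mass Da μ D (W i) (φ j) a ≤
        θ * Vol j * Z i) := by
      rw [Finset.eventually_all]
      intro j hj'
      have := hcon j (Finset.mem_range.1 hj')
      simpa only [not_le] using this
    obtain ⟨i, hi⟩ := h2.exists
    obtain ⟨j, hj1, hj2⟩ := h1 i
    exact hi j (Finset.mem_range.2 hj1) hj2
  -- the masses
  set M : R → ℕ → ℝ := fun b i => (mass Da μ D (W i) (φ j) b / Z i).toReal with hM
  have hmt : ∀ b ∈ P, ∀ i, mass Da μ D (W i) (φ j) b / Z i ≤ C₁ * Vol j * mD := by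
    intro b hb i
    have h2 := mass_le_const (μ := μ) Da hD (W i) b (U := C₁ * Vol j)
      (fun y _ h hh => hup j hjJ y h hh b hb)
    refine ENNReal.div_le_of_le_mul ?_
    rw [← hmD'] at h2
    calc mass Da μ D (W i) (φ j) b ≤ C₁ * Vol j * (mD * ∑' y, W i y) := h2
      _ = _ := by rw [hZ]; ring
  have hmt' : ∀ b ∈ P, ∀ i, mass Da μ D (W i) (φ j) b / Z i ≠ ∞ := fun b hb i =>
    ne_top_of_le_ne_top (by finiteness) (hmt b hb i)
  have htot : ∀ b ∈ P, ∀ i, ∀ h ∈ D, tot Da (W i) (φ j) b h ≤ (C₁ * Vol j : ℝ≥0) * Z i := by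
    intro b hb i h hh
    rw [← tsum_cnt, hZ, ← ENNReal.tsum_mul_left]
    refine ENNReal.tsum_le_tsum fun y => ?_
    rw [mul_comm]
    gcongr
    push_cast
    exact hup j hjJ y h hh b hb
  have hdiff : ∀ b ∈ P, Tendsto (fun i => M a i - M b i) atTop (𝓝 0) := by
    intro b hb
    exact mass_sub_tendsto Da hm hD hDfin W (hφ j) Z hW0 hWt a b
      (fun i h hh => htot a ha i h hh) (fun i h hh => htot b hb i h hh) (heq j hjJ b hb)
  have hsum : Tendsto (fun i => ∑ b ∈ P, (M a i - M b i)) atTop (𝓝 0) := by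
    have := tendsto_finsetSum P fun b hb => hdiff b hb
    simpa using this
  have hgapn : 0 < (Vol j : ℝ) * (c₀ - P.card * θ) := by
    have h2 : 0 < (Vol j : ℝ) := by exact_mod_cast hVol j hjJ
    have h3 : ((P.card : ℝ) * θ) < c₀ := by exact_mod_cast hnum
    exact mul_pos h2 (by linarith)
  have hev : ∀ᶠ i in atTop, -((Vol j : ℝ) * (c₀ - P.card * θ)) < ∑ b ∈ P, (M a i - M b i) :=
    hsum.eventually (lt_mem_nhds (by linarith))
  obtain ⟨i, hi1, hi2, hi3⟩ := (hfreq.and_eventually (hev.and (hpos j hjJ))).exists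
  have h4 : M a i ≤ θ * Vol j := by
    have h5 : mass Da μ D (W i) (φ j) a / Z i ≤ ((θ * Vol j : ℝ≥0) : ℝ≥0∞) := by
      refine ENNReal.div_le_of_le_mul ?_
      push_cast
      exact hi1
    have := ENNReal.toReal_mono ENNReal.coe_ne_top h5
    rw [ENNReal.coe_toReal] at this
    exact_mod_cast this
  have h6 : (c₀ : ℝ) * Vol j ≤ ∑ b ∈ P, M b i := by
    have h7 : ((c₀ * Vol j : ℝ≥0) : ℝ≥0∞) ≤ ∑ b ∈ P, mass Da μ D (W i) (φ j) b / Z i := by
      have h8 : ∑ b ∈ P, mass Da μ D (W i) (φ j) b / Z i =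
          (∑ b ∈ P, mass Da μ D (W i) (φ j) b) / Z i := by
        simp_rw [div_eq_mul_inv]
        rw [Finset.sum_mul]
      rw [h8, ENNReal.le_div_iff_mul_le (Or.inl (hW0 i)) (Or.inl (hWt i))]
      push_cast
      exact hi3
    have h9 : (∑ b ∈ P, mass Da μ D (W i) (φ j) b / Z i) ≠ ∞ :=
      (ENNReal.sum_lt_top.2 fun b hb => (hmt' b hb i).lt_top).ne
    have h10 := ENNReal.toReal_mono h9 h7
    rw [ENNReal.toReal_sum fun b hb => hmt' b hb i, ENNReal.coe_toReal] at h10
    exact_mod_cast h10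
  rw [Finset.sum_sub_distrib, Finset.sum_const, nsmul_eq_mul] at hi2
  have h11 : (P.card : ℝ) * M a i ≤ P.card * (θ * Vol j) := by gcongr
  nlinarith

end final

end Vale.Agent.P011.H261
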