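import Mathlib

/-!
# P011, module H261-1 (LIM), part 1: limit densities of families of measures

`M : ι → Measure G` a family of measures on a locally compact space, normalised by `Z : ι → ℝ`,
with the upper bound `M s K ≤ (C μ K + ε) Z s` (eventually, for every compact `K`).  Along every
ultrafilter the functionals `f ↦ (∫ f dM_s) / Z_s` converge to `f ↦ ∫ f E dμ` with a measurable
density `0 ≤ E ≤ C`.
-/

set_option linter.unusedSectionVars false

open MeasureTheory Filter Topology CompactlySupported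
open scoped ENNReal NNReal

namespace Vale.Agent.P011.H261

variable {G : Type*} [TopologicalSpace G] [T2Space G] [LocallyCompactSpace G]
  [MeasurableSpace G] [BorelSpace G]

/-- domination on compact sets -/
theorem riesz_le_compact (μ : Measure G) [μ.OuterRegular] (Λ : C_c(G, ℝ) →ₚ[ℝ] ℝ) (C : ℝ≥0)
    (hΛ : ∀ f : C_c(G, ℝ), (∀ x, 0 ≤ f x ∧ f x ≤ 1) →
      ENNReal.ofReal (Λ f) ≤ C * μ (tsupport f))
    {K : Set G} (hK : IsCompact K) :
    RealRMK.rieszMeasure Λ K ≤ C * μ K := by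
  refine ENNReal.le_of_forall_pos_le_add fun ε hε _ => ?_
  have hδ : (ε / (C + 1) : ℝ≥0) ≠ 0 := by positivity
  obtain ⟨V, hKV, hV, hμV⟩ := Set.exists_isOpen_le_add K μ (ENNReal.coe_ne_zero.2 hδ)
  obtain ⟨f, pf1, pf2, pf3⟩ :
      ∃ f : C_c(G, ℝ), Set.EqOn (⇑f) 1 K ∧ tsupport ⇑f ⊆ V ∧ ∀ (x : G), f x ∈ Set.Icc 0 1 := by
    obtain ⟨f, hf1, hf2, hf3⟩ := exists_continuousMap_one_of_isCompact_subset_isOpen hK hV hKV
    exact ⟨⟨f, hasCompactSupport_def.mpr hf2⟩, hf1, hf3⟩
  calc RealRMK.rieszMeasure Λ K ≤ ENNReal.ofReal (Λ f) :=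
        RealRMK.rieszMeasure_le_of_eq_one Λ (fun x => (pf3 x).1) hK (fun x hx => pf1 hx)
    _ ≤ C * μ (tsupport f) := hΛ f pf3
    _ ≤ C * μ V := by gcongr
    _ ≤ C * (μ K + (ε / (C + 1) : ℝ≥0)) := by gcongr
    _ ≤ C * μ K + ε := by
        rw [mul_add]
        gcongr
        rw [← ENNReal.coe_mul]
        refine ENNReal.coe_le_coe.2 ?_
        rw [← mul_div_assoc, div_le_iff₀ (by positivity), mul_comm]
        gcongr
        exact le_self_add

variable [SecondCountableTopology G]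

theorem riesz_le (μ : Measure G) [μ.OuterRegular] (Λ : C_c(G, ℝ) →ₚ[ℝ] ℝ) (C : ℝ≥0)
    (hΛ : ∀ f : C_c(G, ℝ), (∀ x, 0 ≤ f x ∧ f x ≤ 1) →
      ENNReal.ofReal (Λ f) ≤ C * μ (tsupport f)) :
    RealRMK.rieszMeasure Λ ≤ C • μ := by
  refine Measure.le_iff.2 fun A hA => ?_
  rw [hA.measure_eq_iSup_isCompact]
  refine iSup₂_le fun K hKA => iSup_le fun hK => ?_
  refine (riesz_le_compact μ Λ C hΛ hK).trans ?_
  simp only [Measure.smul_apply, ENNReal.smul_def, smul_eq_mul]
  gcongr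

/-- the density -/
theorem exists_density (μ : Measure G) [μ.Regular] (Λ : C_c(G, ℝ) →ₚ[ℝ] ℝ) (C : ℝ≥0)
    (hΛ : ∀ f : C_c(G, ℝ), (∀ x, 0 ≤ f x ∧ f x ≤ 1) →
      ENNReal.ofReal (Λ f) ≤ C * μ (tsupport f)) :
    ∃ E : G → ℝ≥0, Measurable E ∧ (∀ x, E x ≤ C) ∧
      RealRMK.rieszMeasure Λ = μ.withDensity (fun x => (E x : ℝ≥0∞)) := by
  set ν := RealRMK.rieszMeasure Λ with hν
  have hle : ν ≤ C • μ := riesz_le μ Λ C hΛ
  have hac : ν ≪ μ := by
    refine (Measure.absolutelyContinuous_of_le hle).trans ?_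
    exact Measure.smul_absolutelyContinuous
  have hd : μ.withDensity (ν.rnDeriv μ) = ν := Measure.withDensity_rnDeriv_eq ν μ hac
  have hC : ν.rnDeriv μ ≤ᵐ[μ] fun _ => (C : ℝ≥0∞) := by
    refine ae_le_of_forall_setLIntegral_le_of_sigmaFinite (Measure.measurable_rnDeriv ν μ)
      fun s hs _ => ?_
    rw [← withDensity_apply _ hs, hd, setLIntegral_const]
    have := hle s
    rwa [Measure.smul_apply, ENNReal.smul_def, smul_eq_mul] at this
  refine ⟨fun x => min (ν.rnDeriv μ x).toNNReal C, ?_, fun x => min_le_right _ _, ?_⟩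
  · exact (Measure.measurable_rnDeriv ν μ).ennreal_toNNReal.min measurable_const
  · refine hd.symm.trans (withDensity_congr_ae ?_)
    filter_upwards [hC] with x hx
    have hx' : ν.rnDeriv μ x ≠ ∞ := ne_top_of_le_ne_top ENNReal.coe_ne_top hx
    rw [ENNReal.coe_min, ENNReal.coe_toNNReal hx', min_eq_left hx]

theorem abs_integral_le (m : Measure G) [IsFiniteMeasureOnCompacts m] (f : C_c(G, ℝ)) {B : ℝ}
    (hB : ∀ x, |f x| ≤ B) : |∫ x, f x ∂m| ≤ B * m.real (tsupport f) := by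
  rw [← setIntegral_tsupport]
  have := norm_setIntegral_le_of_norm_le_const (μ := m) (s := tsupport f) (f := f) (C := B)
    (f.hasCompactSupport.isCompact.measure_lt_top) (fun x _ => by simpa using hB x)
  simpa using this

theorem exists_bound (f : C_c(G, ℝ)) : ∃ B : ℝ, 0 ≤ B ∧ ∀ x, |f x| ≤ B := by
  obtain ⟨B, hB⟩ := f.hasCompactSupport.exists_bound_of_continuous f.continuous
  exact ⟨max B 0, le_max_right _ _, fun x => (by simpa using hB x : |f x| ≤ B).trans
    (le_max_left _ _)⟩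

variable {ι : Type*}

/-- the upper bound hypothesis: `M s K ≤ (C μ K + ε) Z s` eventually, for every compact `K` -/
def UB (μ : Measure G) (F : Filter ι) (M : ι → Measure G) (Z : ι → ℝ) (C : ℝ≥0) : Prop :=
  ∀ K : Set G, IsCompact K → ∀ ε : ℝ, 0 < ε →
    ∀ᶠ s in F, (M s).real K ≤ (C * μ.real K + ε) * Z s

theorem UB.exists_lim {μ : Measure G} {F : Filter ι} {M : ι → Measure G} {Z : ι → ℝ} {C : ℝ≥0}
    [∀ s, IsFiniteMeasureOnCompacts (M s)]
    (h : UB μ F M Z C) (hZ : ∀ s, 0 < Z s) {U : Ultrafilter ι} (hU : (U : Filter ι) ≤ F)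
    (f : C_c(G, ℝ)) :
    ∃ l : ℝ, Tendsto (fun s => (∫ x, f x ∂(M s)) / Z s) U (𝓝 l) := by
  obtain ⟨B, hB0, hB⟩ := exists_bound f
  set D : ℝ := B * (C * μ.real (tsupport f) + 1) with hD
  have hev : ∀ᶠ s in (U : Filter ι), (∫ x, f x ∂(M s)) / Z s ∈ Set.Icc (-D) D := by
    filter_upwards [hU (h (tsupport f) f.hasCompactSupport 1 one_pos)] with s hs
    rw [Set.mem_Icc, ← abs_le, abs_div, abs_of_pos (hZ s), div_le_iff₀ (hZ s)]
    refine (abs_integral_le (M s) f hB).trans ?_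
    rw [hD, mul_assoc]
    exact mul_le_mul_of_nonneg_left hs hB0
  obtain ⟨l, -, hl⟩ := isCompact_Icc.ultrafilter_le_nhds
    (U.map (fun s => (∫ x, f x ∂(M s)) / Z s)) (le_principal_iff.2 hev)
  exact ⟨l, hl⟩

/-- the limit functional along an ultrafilter -/
noncomputable def limFun (F : Filter ι) (M : ι → Measure G) [∀ s, IsFiniteMeasureOnCompacts (M s)]
    (Z : ι → ℝ) {μ : Measure G} {C : ℝ≥0}
    (h : UB μ F M Z C) (hZ : ∀ s, 0 < Z s) {U : Ultrafilter ι} (hU : (U : Filter ι) ≤ F) :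
    C_c(G, ℝ) →ₚ[ℝ] ℝ :=
  PositiveLinearMap.mk₀
    { toFun := fun f => (h.exists_lim hZ hU f).choose
      map_add' := fun f g => by
        refine tendsto_nhds_unique (h.exists_lim hZ hU (f + g)).choose_spec ?_
        have := (h.exists_lim hZ hU f).choose_spec.add (h.exists_lim hZ hU g).choose_spec
        refine this.congr fun s => ?_
        rw [← add_div]
        congr 1
        exact (integral_add f.integrable g.integrable).symm
      map_smul' := fun a f => by
        refine tendsto_nhds_unique (h.exists_lim hZ hU (a • f)).choose_spec ?_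
        have := (h.exists_lim hZ hU f).choose_spec.const_mul a
        refine this.congr fun s => ?_
        rw [← mul_div_assoc]
        congr 1
        exact (integral_smul a f).symm }
    fun f hf => by
      refine ge_of_tendsto' (h.exists_lim hZ hU f).choose_spec fun s => ?_
      exact div_nonneg (integral_nonneg hf) (hZ s).le

theorem tendsto_limFun {F : Filter ι} {M : ι → Measure G} [∀ s, IsFiniteMeasureOnCompacts (M s)]
    {Z : ι → ℝ} {μ : Measure G} {C : ℝ≥0}
    (h : UB μ F M Z C) (hZ : ∀ s, 0 < Z s) {U : Ultrafilter ι} (hU : (U : Filter ι) ≤ F)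
    (f : C_c(G, ℝ)) :
    Tendsto (fun s => (∫ x, f x ∂(M s)) / Z s) U (𝓝 (limFun F M Z h hZ hU f)) :=
  (h.exists_lim hZ hU f).choose_spec

theorem limFun_le {F : Filter ι} {M : ι → Measure G} [∀ s, IsFiniteMeasureOnCompacts (M s)]
    {Z : ι → ℝ} {μ : Measure G} [IsFiniteMeasureOnCompacts μ] {C : ℝ≥0}
    (h : UB μ F M Z C) (hZ : ∀ s, 0 < Z s) {U : Ultrafilter ι} (hU : (U : Filter ι) ≤ F)
    (f : C_c(G, ℝ)) (hf : ∀ x, 0 ≤ f x ∧ f x ≤ 1) :
    ENNReal.ofReal (limFun F M Z h hZ hU f) ≤ C * μ (tsupport f) := by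
  have hfin : μ (tsupport f) ≠ ∞ := f.hasCompactSupport.isCompact.measure_lt_top.ne
  have key : limFun F M Z h hZ hU f ≤ C * μ.real (tsupport f) := by
    refine le_of_forall_pos_le_add fun ε hε => ?_
    refine le_of_tendsto (tendsto_limFun h hZ hU f) ?_
    filter_upwards [hU (h (tsupport f) f.hasCompactSupport ε hε)] with s hs
    rw [div_le_iff₀ (hZ s)]
    refine le_trans ?_ hs
    have := abs_integral_le (M s) f (B := 1) (fun x => by
      rw [abs_of_nonneg (hf x).1]; exact (hf x).2)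
    rw [one_mul] at this
    exact (le_abs_self _).trans this
  calc ENNReal.ofReal (limFun F M Z h hZ hU f)
      ≤ ENNReal.ofReal (C * μ.real (tsupport f)) := ENNReal.ofReal_le_ofReal key
    _ = C * μ (tsupport f) := by
        rw [ENNReal.ofReal_mul C.coe_nonneg, ENNReal.ofReal_coe_nnreal, Measure.real,
          ENNReal.ofReal_toReal hfin]

/-- **Limit densities.** -/
theorem exists_limit_density {F : Filter ι} {M : ι → Measure G}
    [∀ s, IsFiniteMeasureOnCompacts (M s)]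
    {Z : ι → ℝ} {μ : Measure G} [μ.Regular] {C : ℝ≥0}
    (h : UB μ F M Z C) (hZ : ∀ s, 0 < Z s) {U : Ultrafilter ι} (hU : (U : Filter ι) ≤ F) :
    ∃ E : G → ℝ≥0, Measurable E ∧ (∀ x, E x ≤ C) ∧
      ∀ f : C_c(G, ℝ), Tendsto (fun s => (∫ x, f x ∂(M s)) / Z s) U
        (𝓝 (∫ x, f x ∂(μ.withDensity (fun x => (E x : ℝ≥0∞))))) := by
  obtain ⟨E, hE, hEC, hd⟩ := exists_density μ (limFun F M Z h hZ hU) C (limFun_le h hZ hU)
  refine ⟨E, hE, hEC, fun f => ?_⟩
  rw [← hd, RealRMK.integral_rieszMeasure]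
  exact tendsto_limFun h hZ hU f

end Vale.Agent.P011.H261
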