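import Vale.Agent.P011.H380.Up
import Vale.Agent.P011.H699.ConjLim
import Vale.Agent.P011.H966.TransLim

/-!
# M6 : the hypotheses `hup` and `hlim` of `H966.exists_finite_law`

From the asymptotic upper bound of the measures `smeas pos (wt den x) s` (`x → 1+`, all sets `s` of
points) and the conjugation Mautner lemma.
-/

open MeasureTheory Filter Topology Set
open scoped CompactlySupported ENNReal NNReal

namespace Vale.Agent.P011.H261

open H380.Theta

section sums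

variable {Om G : Type*} [MeasurableSpace G]

theorem wt_of_lt {den : Om → ℝ} {x : ℝ} (hx : 1 < x) (y : Om) :
    wt den x y = (x - 1) * den y ^ (-x) := by
  rw [wt, max_eq_left (by linarith)]

theorem wt_nonneg' {den : Om → ℝ} (hden : ∀ y, 0 < den y) (x : ℝ) (y : Om) : 0 ≤ wt den x y :=
  mul_nonneg (le_max_right _ _) (Real.rpow_pos_of_pos (hden y) _).le

/-- The integral over the points of `s` as a sum over all points. -/
theorem hasSum_smeas {pos : Om → G} {W : Om → ℝ} (hW : ∀ p, 0 ≤ W p) (s : Set Om) {φ : G → ℝ}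
    (hφ : StronglyMeasurable φ) (h : Integrable φ (smeas pos W s)) :
    HasSum (fun y => W y * (s.indicator 1 y * φ (pos y))) (∫ g, φ g ∂(smeas pos W s)) := by
  have h1 := integral_smeas hW s hφ h
  have h2 := (hasSum_subtype_iff_indicator (f := fun y => W y * φ (pos y))).1 h1
  convert h2 using 1
  funext y
  by_cases hy : y ∈ s
  · rw [indicator_of_mem hy, indicator_of_mem hy, Pi.one_apply, one_mul]
  · rw [indicator_of_notMem hy, indicator_of_notMem hy, zero_mul, mul_zero]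

/-- Passage from integrals to sums. -/
theorem tendsto_sum_sub {pos : Om → G} {den : Om → ℝ} (hden : ∀ y, 0 < den y) {φ : G → ℝ}
    (hφ : StronglyMeasurable φ) {A B : Set Om}
    (hA : ∀ᶠ x in 𝓝[>] (1 : ℝ), Integrable φ (smeas pos (wt den x) A))
    (hB : ∀ᶠ x in 𝓝[>] (1 : ℝ), Integrable φ (smeas pos (wt den x) B))
    (h : Tendsto (fun x : ℝ => ∫ g, φ g ∂(smeas pos (wt den x) A) -
      ∫ g, φ g ∂(smeas pos (wt den x) B)) (𝓝[>] 1) (𝓝 0)) :
    Tendsto (fun x : ℝ =>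
      ∑' y, (x - 1) * den y ^ (-x) * (A.indicator 1 y * φ (pos y)) -
      ∑' y, (x - 1) * den y ^ (-x) * (B.indicator 1 y * φ (pos y))) (𝓝[>] 1) (𝓝 0) := by
  refine h.congr' ?_
  filter_upwards [hA, hB, self_mem_nhdsWithin] with x h1 h2 hx
  replace hx : 1 < x := hx
  rw [← (hasSum_smeas (wt_nonneg' hden x) A hφ h1).tsum_eq,
    ← (hasSum_smeas (wt_nonneg' hden x) B hφ h2).tsum_eq]
  simp_rw [wt_of_lt hx]

variable [TopologicalSpace G] [BorelSpace G] [T2Space G] [LocallyCompactSpace G]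

/-- `hup` of `H966.exists_finite_law`. -/
theorem hup_of_up {μ : Measure G} {pos : Om → G} {den : Om → ℝ} (hden : ∀ y, 0 < den y) {C : ℝ}
    (hup : ∀ φ : C_c(G, ℝ), (∀ g, 0 ≤ φ g) → ∀ ε : ℝ, 0 < ε → ∀ᶠ x : ℝ in 𝓝[>] 1, ∀ s : Set Om,
      Integrable φ (smeas pos (wt den x) s) ∧
        ∫ g, φ g ∂(smeas pos (wt den x) s) ≤ C * ∫ g, φ g ∂μ + ε)
    (K : Set G) (hK : IsCompact K) :
    ∃ C : ℝ, ∀ᶠ x in 𝓝[>] (1 : ℝ),
      Summable (fun y => (x - 1) * den y ^ (-x) * K.indicator 1 (pos y)) ∧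
      ∑' y, (x - 1) * den y ^ (-x) * K.indicator 1 (pos y) ≤ C := by
  obtain ⟨ψ, hψ1, hψc, -, hψ01⟩ := exists_continuousMap_one_of_isCompact_subset_isOpen
    hK isOpen_univ (subset_univ K)
  let φ : C_c(G, ℝ) := ⟨ψ, hψc⟩
  have hφ : ∀ g, 0 ≤ φ g := fun g => (hψ01 g).1
  refine ⟨C * ∫ g, φ g ∂μ + 1, ?_⟩
  filter_upwards [hup φ hφ 1 one_pos, self_mem_nhdsWithin] with x h1 hx
  replace hx : 1 < x := hx
  obtain ⟨h2, h3⟩ := h1 univ
  have h4 := hasSum_smeas (wt_nonneg' hden x) univ φ.continuous.stronglyMeasurable h2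
  have h5 : ∀ y, 0 ≤ (x - 1) * den y ^ (-x) := fun y =>
    mul_nonneg (by linarith) (Real.rpow_pos_of_pos (hden y) _).le
  have h6 : ∀ y, (x - 1) * den y ^ (-x) * K.indicator 1 (pos y) ≤
      wt den x y * ((univ : Set Om).indicator 1 y * φ (pos y)) := by
    intro y
    rw [wt_of_lt hx, indicator_of_mem (mem_univ y), Pi.one_apply, one_mul]
    refine mul_le_mul_of_nonneg_left ?_ (h5 y)
    by_cases hy : pos y ∈ K
    · rw [indicator_of_mem hy]
      exact (hψ1 hy).symm.le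
    · rw [indicator_of_notMem hy]
      exact hφ _
  have h7 : ∀ y, 0 ≤ (x - 1) * den y ^ (-x) * K.indicator (1 : G → ℝ) (pos y) := fun y =>
    mul_nonneg (h5 y) (indicator_nonneg (fun _ _ => zero_le_one) _)
  have h8 : Summable (fun y => (x - 1) * den y ^ (-x) * K.indicator (1 : G → ℝ) (pos y)) :=
    Summable.of_nonneg_of_le h7 h6 h4.summable
  refine ⟨h8, ?_⟩
  calc _ ≤ ∑' y, wt den x y * ((univ : Set Om).indicator 1 y * φ (pos y)) :=
        h8.tsum_le_tsum h6 h4.summable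
    _ = _ := h4.tsum_eq
    _ ≤ _ := h3

omit [T2Space G] [LocallyCompactSpace G] in
/-- Integrability of all test functions. -/
theorem integrable_of_up {μ : Measure G} {pos : Om → G} {den : Om → ℝ} {C : ℝ}
    (hup : ∀ φ : C_c(G, ℝ), (∀ g, 0 ≤ φ g) → ∀ ε : ℝ, 0 < ε → ∀ᶠ x : ℝ in 𝓝[>] 1, ∀ s : Set Om,
      Integrable φ (smeas pos (wt den x) s) ∧
        ∫ g, φ g ∂(smeas pos (wt den x) s) ≤ C * ∫ g, φ g ∂μ + ε)
    (φ : C_c(G, ℝ)) :
    ∀ᶠ x : ℝ in 𝓝[>] 1, ∀ s : Set Om, Integrable φ (smeas pos (wt den x) s) := by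
  filter_upwards [hup (H83.absC φ) (fun g => abs_nonneg _) 1 one_pos] with x hx s
  refine (hx s).1.mono φ.continuous.aestronglyMeasurable (Eventually.of_forall fun x => ?_)
  rw [H83.absC_apply, Real.norm_eq_abs, Real.norm_eq_abs, abs_abs]

end sums

section conj

open Matrix H699

variable {G : Type*} [Group G] [TopologicalSpace G] [IsTopologicalGroup G]
  [LocallyCompactSpace G] [T2Space G] [SecondCountableTopology G] [MeasurableSpace G]
  [BorelSpace G]

/-- `hlim` of `H966.exists_finite_law`, from the conjugation Mautner lemma: the points of colour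
`ρ • a` and the points of colour `a` have asymptotically the same weights in `X0`. -/
theorem hlim_of_conj (μ : Measure G) [μ.IsHaarMeasure] [μ.IsMulRightInvariant]
    {Om Γ Q A : Type*} [Group Γ] [Countable Γ] [Group Q] [MulAction Q A] [Finite A]
    (i : Γ →* G) (c : Γ →* Q) {N : Subgroup G} {K : Set G} (hN : Cocpt N K)
    (hNc : ∀ x ∈ N, ∃ γ : Γ, c γ = 1 ∧ i γ = x)
    {pos : Om → G} {den : Om → ℝ} (hden : ∀ y, 0 < den y) (col : Om → A)
    (e : Γ → Om ≃ Om) (hepos : ∀ γ y, pos (e γ y) = i γ * pos y * (i γ)⁻¹)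
    (heden : ∀ γ y, den (e γ y) = den y) (hecol : ∀ γ y, col (e γ y) = c γ • col y)
    {C : ℝ≥0}
    (hup : ∀ φ : C_c(G, ℝ), (∀ g, 0 ≤ φ g) → ∀ ε : ℝ, 0 < ε → ∀ᶠ x : ℝ in 𝓝[>] 1, ∀ s : Set Om,
      Integrable φ (smeas pos (wt den x) s) ∧
        ∫ g, φ g ∂(smeas pos (wt den x) s) ≤ C * ∫ g, φ g ∂μ + ε)
    {ι F : Type*} [Fintype ι] [DecidableEq ι] [Nontrivial ι] [Field F] [TopologicalSpace F]
    [IsTopologicalRing F] [T2Space F] [LocallyCompactSpace F] [SigmaCompactSpace F]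
    {ϖ : F} (hϖ : ϖ ≠ 0) (hpow : ∀ x : F, Tendsto (fun m : ℕ => x * ϖ ^ m) atTop (𝓝 0))
    (j : SpecialLinearGroup ι F →* G) (hj : Continuous j) (hn : j.range.Normal)
    {X0 : Set G} (hX0 : IsOpen X0)
    (hsplit : ∀ p ∈ X0, ∃ h : Matrix ι ι F, IsUnit h.det ∧
      ∀ (s : SpecialLinearGroup ι F) (z : ι → F),
        (s : Matrix ι ι F) = h * diagonal z * h⁻¹ → Commute (j s) p)
    (ρ : Q) (hρ : ∀ O ∈ 𝓝 (1 : G), ∃ γ : Γ, c γ = ρ ∧
      ∃ o ∈ O, ∃ s : SpecialLinearGroup ι F, i γ = o * j s)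
    (φ : C_c(G, ℝ)) (hφ : tsupport φ ⊆ X0) (a : A) :
    Tendsto (fun x : ℝ =>
      ∑' y, (x - 1) * den y ^ (-x) * ({y | col y = ρ • a}.indicator 1 y * φ (pos y)) -
      ∑' y, (x - 1) * den y ^ (-x) * ({y | col y = a}.indicator 1 y * φ (pos y)))
      (𝓝[>] 1) (𝓝 0) := by
  have hint := integrable_of_up hup φ
  refine tendsto_sum_sub hden φ.continuous.stronglyMeasurable (hint.mono fun x hx => hx _)
    (hint.mono fun x hx => hx _) ?_
  refine conj_colours μ (𝓝[>] (1 : ℝ)) i c hN hNc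
    (fun x a => smeas pos (wt den x) {y | col y = a}) ?_ C ?_ hϖ hpow j hj hn hX0 hsplit ρ hρ φ
    (fun g hg => image_eq_zero_of_notMem_tsupport fun h => hg (hφ h)) a
  · intro x a γ
    refine map_smeas ?_ (e γ) ?_ ?_ ?_
    · exact (by fun_prop : Continuous fun g : G => i γ * g * (i γ)⁻¹).measurable
    · intro p
      rw [mem_ofPred_eq, mem_ofPred_eq, hecol]
      exact (smul_left_cancel_iff (c γ)).symm
    · intro p _
      rw [wt, wt, heden]
    · intro p _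
      exact hepos γ p
  · intro a φ hφ ε hε
    filter_upwards [hup φ hφ ε hε] with x hx
    exact hx _

/-- The same with the two colour classes exchanged. -/
theorem hlim_of_conj' (μ : Measure G) [μ.IsHaarMeasure] [μ.IsMulRightInvariant]
    {Om Γ Q A : Type*} [Group Γ] [Countable Γ] [Group Q] [MulAction Q A] [Finite A]
    (i : Γ →* G) (c : Γ →* Q) {N : Subgroup G} {K : Set G} (hN : Cocpt N K)
    (hNc : ∀ x ∈ N, ∃ γ : Γ, c γ = 1 ∧ i γ = x)
    {pos : Om → G} {den : Om → ℝ} (hden : ∀ y, 0 < den y) (col : Om → A)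
    (e : Γ → Om ≃ Om) (hepos : ∀ γ y, pos (e γ y) = i γ * pos y * (i γ)⁻¹)
    (heden : ∀ γ y, den (e γ y) = den y) (hecol : ∀ γ y, col (e γ y) = c γ • col y)
    {C : ℝ≥0}
    (hup : ∀ φ : C_c(G, ℝ), (∀ g, 0 ≤ φ g) → ∀ ε : ℝ, 0 < ε → ∀ᶠ x : ℝ in 𝓝[>] 1, ∀ s : Set Om,
      Integrable φ (smeas pos (wt den x) s) ∧
        ∫ g, φ g ∂(smeas pos (wt den x) s) ≤ C * ∫ g, φ g ∂μ + ε)
    {ι F : Type*} [Fintype ι] [DecidableEq ι] [Nontrivial ι] [Field F] [TopologicalSpace F]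
    [IsTopologicalRing F] [T2Space F] [LocallyCompactSpace F] [SigmaCompactSpace F]
    {ϖ : F} (hϖ : ϖ ≠ 0) (hpow : ∀ x : F, Tendsto (fun m : ℕ => x * ϖ ^ m) atTop (𝓝 0))
    (j : SpecialLinearGroup ι F →* G) (hj : Continuous j) (hn : j.range.Normal)
    {X0 : Set G} (hX0 : IsOpen X0)
    (hsplit : ∀ p ∈ X0, ∃ h : Matrix ι ι F, IsUnit h.det ∧
      ∀ (s : SpecialLinearGroup ι F) (z : ι → F),
        (s : Matrix ι ι F) = h * diagonal z * h⁻¹ → Commute (j s) p)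
    (ρ : Q) (hρ : ∀ O ∈ 𝓝 (1 : G), ∃ γ : Γ, c γ = ρ ∧
      ∃ o ∈ O, ∃ s : SpecialLinearGroup ι F, i γ = o * j s)
    (φ : C_c(G, ℝ)) (hφ : tsupport φ ⊆ X0) (a : A) :
    Tendsto (fun x : ℝ =>
      ∑' y, (x - 1) * den y ^ (-x) * ({y | col y = a}.indicator 1 y * φ (pos y)) -
      ∑' y, (x - 1) * den y ^ (-x) * ({y | col y = ρ • a}.indicator 1 y * φ (pos y)))
      (𝓝[>] 1) (𝓝 0) := by
  have h := (hlim_of_conj μ i c hN hNc hden col e hepos heden hecol hup hϖ hpow j hj hn hX0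
    hsplit ρ hρ φ hφ a).neg
  rw [neg_zero] at h
  refine h.congr fun x => ?_
  ring

end conj

section pairs

/-- Pairs of colours with simultaneous conjugation: the colour `(c y, c (T y))` of the points, where
`T` commutes with the conjugations by `Γ`. -/
theorem pair_col {Om Q Γ : Type*} [Group Q] [Group Γ] (col : Om → Q) (T : Om → Om)
    (c : Γ →* Q) (e : Γ → Om ≃ Om) (hcol : ∀ γ y, col (e γ y) = c γ * col y * (c γ)⁻¹)
    (hT : ∀ γ y, T (e γ y) = e γ (T y)) (γ : Γ) (y : Om) :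
    (col (e γ y), col (T (e γ y))) =
      ((ConjAct.toConjAct : Q ≃* ConjAct Q).toMonoidHom.comp c) γ • (col y, col (T y)) := by
  rw [hT, hcol, hcol]
  rfl

theorem pair_smul {Q : Type*} [Group Q] (ρ a a' : Q) :
    (ConjAct.toConjAct ρ) • ((a, a') : Q × Q) = (ρ * a * ρ⁻¹, ρ * a' * ρ⁻¹) := rfl

end pairs

end Vale.Agent.P011.H261
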