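import Vale.Agent.P011.H261.M6BC
import Vale.Agent.P011.H380.UpNF

/-!
# M6 for number fields, in the letters `UD D`, `posS`, `denS`
-/

set_option linter.unusedSectionVars false

open MeasureTheory Filter Topology Set Module NumberField IsDedekindDomain
open scoped ENNReal NNReal CompactlySupported

namespace Vale.Agent.P011.H261

open H544 H83 H380.Theta H380.SymBC H380.UnitsTop H380.UpBC H699 Arith

theorem uD_bijective {D : Type} [DivisionRing D] [StarRing D] :
    Function.Bijective (uD (D := D)) := by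
  refine ⟨uD_injective, fun w => ?_⟩
  have h1 : (w : D) * star (w : D) = 1 := Unitary.mul_star_self_of_mem w.2
  have h2 : star (w : D) * (w : D) = 1 := Unitary.star_mul_self_of_mem w.2
  exact ⟨⟨⟨w, star (w : D), h1, h2⟩, h1⟩, rfl⟩

variable {k D : Type} [Field k] [NumberField k] [DivisionRing D] [StarRing D] [Algebra k D]
  [StarLin k D] {N : ℕ} (B : Basis (Fin N) k D) (S : Finset (HeightOneSpectrum (𝓞 k)))

/-- The Haar measures of `U(k_S)` are biinvariant. -/
theorem isMulRightInvariant_nf [MeasurableSpace (unitary (BE B (KS k S)))]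
    [BorelSpace (unitary (BE B (KS k S)))] (μ : Measure (unitary (BE B (KS k S))))
    [μ.IsHaarMeasure] : μ.IsMulRightInvariant :=
  isMulRightInvariant_bc (bcT B (KS k S)) (good_KS k S) (isOrd_S B S) μ

/-- **`hup`**, number fields. -/
theorem hup_nf {w0 : D} (hw : ∀ x, w0 * x = x * w0) (hne : w0 ≠ star w0)
    (K : Set (unitary (BE B (KS k S)))) (hK : IsCompact K) :
    ∃ C : ℝ, ∀ᶠ x in 𝓝[>] (1 : ℝ),
      Summable (fun y : H976.UD D => (x - 1) * denS B S y ^ (-x) * K.indicator 1 (posS B S y)) ∧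
      ∑' y : H976.UD D, (x - 1) * denS B S y ^ (-x) * K.indicator 1 (posS B S y) ≤ C :=
  hup_bc (bcT B (KS k S)) uD (good_KS k S) (isOrd_S B S) hw hne uD_injective K hK

/-- **`hlim`**, number fields. -/
theorem hlim_nf {w0 : D} (hw : ∀ x, w0 * x = x * w0) (hne : w0 ≠ star w0)
    {Q : Type*} [Group Q] [Finite Q] (c : H976.UD D →* Q) (T : H976.UD D → H976.UD D)
    (hT : ∀ g : H976.UD D, ((g : Dˣ) : D) ∈ ordO B (OS k S) → ∀ y,
      T (g * y * g⁻¹) = g * T y * g⁻¹)
    {ι' F : Type*} [Fintype ι'] [DecidableEq ι'] [Nontrivial ι'] [Field F] [TopologicalSpace F]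
    [IsTopologicalRing F] [T2Space F] [LocallyCompactSpace F] [SigmaCompactSpace F]
    {ϖ : F} (hϖ : ϖ ≠ 0) (hpow : ∀ x : F, Tendsto (fun m : ℕ => x * ϖ ^ m) atTop (𝓝 0))
    (j : Matrix.SpecialLinearGroup ι' F →* unitary (BE B (KS k S))) (hj : Continuous j)
    (hn : j.range.Normal) {X0 : Set (unitary (BE B (KS k S)))} (hX0 : IsOpen X0)
    (hsplit : ∀ p ∈ X0, ∃ h : Matrix ι' ι' F, IsUnit h.det ∧
      ∀ (s : Matrix.SpecialLinearGroup ι' F) (z : ι' → F),
        (s : Matrix ι' ι' F) = h * Matrix.diagonal z * h⁻¹ → Commute (j s) p)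
    (ρ : Q) (hρ : ∀ O ∈ 𝓝 (1 : unitary (BE B (KS k S))), ∃ g : H976.UD D,
      ((g : Dˣ) : D) ∈ ordO B (OS k S) ∧ c g = ρ ∧
      ∃ o ∈ O, ∃ s : Matrix.SpecialLinearGroup ι' F, posS B S g = o * j s)
    (φ : C_c(unitary (BE B (KS k S)), ℝ)) (hφ : tsupport φ ⊆ X0) (a a' : Q) :
    Tendsto (fun x : ℝ =>
      ∑' y : H976.UD D, (x - 1) * denS B S y ^ (-x) *
        ({y : H976.UD D | c y = a ∧ c (T y) = a'}.indicator 1 y * φ (posS B S y)) -
      ∑' y : H976.UD D, (x - 1) * denS B S y ^ (-x) *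
        ({y : H976.UD D | c y = ρ * a * ρ⁻¹ ∧ c (T y) = ρ * a' * ρ⁻¹}.indicator 1 y *
          φ (posS B S y))) (𝓝[>] 1) (𝓝 0) :=
  hlim_bc (bcT B (KS k S)) uD (good_KS k S) (isOrd_S B S) hw hne uD_bijective c T
    (fun g hg y => hT g hg y) hϖ hpow j hj hn hX0 hsplit ρ hρ φ hφ a a'

end Vale.Agent.P011.H261
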