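import Vale.Agent.P011.H261.M6NF
import Vale.Agent.P011.H487.GKS
import Vale.Agent.P011.H487.GX0
import Vale.Agent.P011.H210.Adic
import Vale.Agent.P011.H544.Bridge
import Vale.Agent.P011.H674.OneStep
import Vale.Agent.P011.One.TwoModel

/-!
# `hlim` at the place `q₀`, for a target group

`S` any finite set of places containing `q₀`, `X0 = {p | pr p ∈ SR}`.
-/

set_option linter.unusedSectionVars false

open MeasureTheory Filter Topology Set Module NumberField IsDedekindDomain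
open scoped ENNReal NNReal CompactlySupported

namespace Vale.Agent.P011.H261

open H544 H83 H380.Theta H380.SymBC H380.UnitsTop H380.UpBC H699 Arith H487

variable {k D : Type} [Field k] [NumberField k] [DivisionRing D] [StarRing D] [Algebra k D]
  [StarLin k D] {n N : ℕ} (B : Basis (Fin N) k D) {S : Finset (HeightOneSpectrum (𝓞 k))}
  {q₀ : HeightOneSpectrum (𝓞 k)} (hq₀ : q₀ ∈ S) (H : Spl B (q₀.adicCompletion k) n)

/-- The projection to `GL_n(k_{q₀})`. -/
noncomputable def prQ : unitary (BE B (KS k S)) →* Matrix.GeneralLinearGroup (Fin n)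
    (q₀.adicCompletion k) := pr (facKS k S ⟨q₀, hq₀⟩) H

/-- The inclusion of `SL_n(k_{q₀})`. -/
noncomputable def jQ : Matrix.SpecialLinearGroup (Fin n) (q₀.adicCompletion k) →*
    unitary (BE B (KS k S)) := jS (facKS k S ⟨q₀, hq₀⟩) H

/-- The elements of `U(k_S)` which are split regular at `q₀`. -/
def X0Q : Set (unitary (BE B (KS k S))) :=
  {p | (prQ B hq₀ H p : Matrix (Fin n) (Fin n) (q₀.adicCompletion k)) ∈
    H210.SR (Fin n) (q₀.adicCompletion k)}

theorem continuous_prQ : Continuous (prQ B hq₀ H) := by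
  have := (bcT B (KS k S)).continuousStar
  exact continuous_pr _ H

theorem continuous_jQ : Continuous (jQ B hq₀ H) := continuous_jS _ H

theorem isOpen_X0Q : IsOpen (X0Q B hq₀ H) :=
  (H210.isOpen_SR_adic q₀).preimage (Units.continuous_val.comp (continuous_prQ B hq₀ H))

/-- The projection of an element of `U(k)`. -/
theorem prQ_posS (y : H976.UD D) :
    (prQ B hq₀ H (posS B S y) : Matrix (Fin n) (Fin n) (q₀.adicCompletion k)) =
      H.f ((y : Dˣ) : D) := pr_j _ H (posS B S y) rfl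

/-- The elements of `U(k)` split regular at `q₀` are in `X0Q`. -/
theorem posS_mem_X0Q {y : H976.UD D} (hy : H.f ((y : Dˣ) : D) ∈
    H210.SR (Fin n) (q₀.adicCompletion k)) : posS B S y ∈ X0Q B hq₀ H := by
  change (prQ B hq₀ H (posS B S y) : Matrix (Fin n) (Fin n) (q₀.adicCompletion k)) ∈
    H210.SR (Fin n) (q₀.adicCompletion k)
  rwa [prQ_posS]

/-- `hsplit`. -/
theorem hsplit_Q (p : unitary (BE B (KS k S))) (hp : p ∈ X0Q B hq₀ H) :
    ∃ h : Matrix (Fin n) (Fin n) (q₀.adicCompletion k), IsUnit h.det ∧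
      ∀ (s : Matrix.SpecialLinearGroup (Fin n) (q₀.adicCompletion k))
        (z : Fin n → q₀.adicCompletion k),
        (s : Matrix (Fin n) (Fin n) (q₀.adicCompletion k)) = h * Matrix.diagonal z * h⁻¹ →
          Commute (jQ B hq₀ H s) p := by
  obtain ⟨g, a, -, hga⟩ := hp
  set h : Matrix (Fin n) (Fin n) (q₀.adicCompletion k) :=
    (g : Matrix (Fin n) (Fin n) (q₀.adicCompletion k)) with hh
  have hinv : ((g⁻¹ : (Matrix (Fin n) (Fin n) (q₀.adicCompletion k))ˣ) :
      Matrix (Fin n) (Fin n) (q₀.adicCompletion k)) = h⁻¹ := by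
    rw [hh, Matrix.coe_units_inv]
  refine ⟨h, ?_, fun s z hs => ?_⟩
  · exact (Matrix.isUnit_iff_isUnit_det _).1 g.isUnit
  · -- commuting matrices
    rw [hinv] at hga
    have hh1 : h⁻¹ * h = 1 := by
      rw [← hinv, hh, Units.inv_mul]
    change Commute (jS (facKS k S ⟨q₀, hq₀⟩) H s) p
    rw [jS_apply]
    refine (commute_jG (facKS k S ⟨q₀, hq₀⟩) H ?_).symm
    change _ * _ = _ * _
    ext1
    rw [Units.val_mul, Units.val_mul]
    change (prQ B hq₀ H p : Matrix (Fin n) (Fin n) (q₀.adicCompletion k)) *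
      (s : Matrix (Fin n) (Fin n) (q₀.adicCompletion k)) =
      (s : Matrix (Fin n) (Fin n) (q₀.adicCompletion k)) *
      (prQ B hq₀ H p : Matrix (Fin n) (Fin n) (q₀.adicCompletion k))
    rw [hga, hs]
    have key : ∀ x y : Fin n → q₀.adicCompletion k,
        h * Matrix.diagonal x * h⁻¹ * (h * Matrix.diagonal y * h⁻¹) =
        h * Matrix.diagonal (fun i => x i * y i) * h⁻¹ := by
      intro x y
      calc h * Matrix.diagonal x * h⁻¹ * (h * Matrix.diagonal y * h⁻¹)
          = h * Matrix.diagonal x * (h⁻¹ * h) * Matrix.diagonal y * h⁻¹ := by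
            simp only [mul_assoc]
        _ = _ := by
            rw [hh1, mul_one, mul_assoc h, Matrix.diagonal_mul_diagonal]
    rw [key, key]
    congr 3
    funext i
    exact mul_comm _ _

/-- A uniformizer with its powers tending to zero. -/
theorem exists_pow (q₀ : HeightOneSpectrum (𝓞 k)) : ∃ ϖ : q₀.adicCompletion k, ϖ ≠ 0 ∧
    ∀ x : q₀.adicCompletion k, Tendsto (fun m : ℕ => x * ϖ ^ m) atTop (𝓝 0) := by
  obtain ⟨x, hx⟩ := q₀.valuation_exists_uniformizer k
  have hx0 : x ≠ 0 := by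
    rintro rfl
    rw [map_zero] at hx
    exact absurd hx.symm (by simp)
  have h1 : ‖((x : k) : q₀.adicCompletion k)‖ < 1 := by
    rw [Valued.toNormedField.norm_lt_one_iff, HeightOneSpectrum.valuedAdicCompletion_eq_valuation',
      hx, ← WithZero.exp_zero, WithZero.exp_lt_exp]
    norm_num
  refine ⟨((x : k) : q₀.adicCompletion k), ?_, fun y => ?_⟩
  · intro h
    apply hx0
    have h2 : algebraMap k (q₀.adicCompletion k) x = 0 := h
    exact (map_eq_zero _).1 h2
  · have h2 := (tendsto_pow_atTop_nhds_zero_of_norm_lt_one h1).const_mul y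
    rwa [mul_zero] at h2

/-- **`hlim` at `q₀`.** -/
theorem hlim_Q (hn : 1 < n) {w0 : D} (hw : ∀ x, w0 * x = x * w0) (hne : w0 ≠ star w0)
    {Q : Type*} [Group Q] [Finite Q] (c : H976.UD D →* Q) (T : H976.UD D → H976.UD D)
    (hT : ∀ g y : H976.UD D, T (g * y * g⁻¹) = g * T y * g⁻¹)
    (ρ : Q) (hρ : ∀ O ∈ 𝓝 (1 : unitary (BE B (KS k S))), ∃ g : H976.UD D,
      ((g : Dˣ) : D) ∈ ordO B (OS k S) ∧ c g = ρ ∧
      ∃ z, posS B S g * (jQ B hq₀ H z)⁻¹ ∈ O)
    (φ : C_c(unitary (BE B (KS k S)), ℝ)) (hφ : tsupport φ ⊆ X0Q B hq₀ H) (a a' : Q) :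
    Tendsto (fun x : ℝ =>
      ∑' y : H976.UD D, (x - 1) * denS B S y ^ (-x) *
        ({y : H976.UD D | c y = a ∧ c (T y) = a'}.indicator 1 y * φ (posS B S y)) -
      ∑' y : H976.UD D, (x - 1) * denS B S y ^ (-x) *
        ({y : H976.UD D | c y = ρ * a * ρ⁻¹ ∧ c (T y) = ρ * a' * ρ⁻¹}.indicator 1 y *
          φ (posS B S y))) (𝓝[>] 1) (𝓝 0) := by
  have : Nontrivial (Fin n) := Fin.nontrivial_iff_two_le.2 hn
  obtain ⟨ϖ, hϖ, hpow⟩ := exists_pow q₀
  refine hlim_nf B S hw hne c T (fun g _ y => hT g y) hϖ hpow (jQ B hq₀ H)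
    (continuous_jQ B hq₀ H) (normal_range _ H) (isOpen_X0Q B hq₀ H)
    (hsplit_Q B hq₀ H) ρ (fun O hO => ?_) φ hφ a a'
  obtain ⟨g, hg, hgρ, z, hz⟩ := hρ O hO
  exact ⟨g, hg, hgρ, _, hz, z, by rw [inv_mul_cancel_right]⟩

section target

variable {K Ω : Type} [Field K] [Algebra K D] [Field Ω] [Algebra K Ω]
  (f : D →ₐ[K] Matrix (Fin n) (Fin n) Ω)

/-- `hrho` of `hlim_Q` for a target group. -/
theorem hrho_target [CharZero K] [FiniteDimensional K D] [Algebra.IsCentral K D] (hn : 0 < n)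
    (hdeg : finrank K D = n ^ 2) (φ : K →+* q₀.adicCompletion k)
    (hφ : ∀ c : K, H.f (algebraMap K D c) = algebraMap (q₀.adicCompletion k) _ (φ c))
    {Q : Type*} [Group Q] {c : H976.UD D →* Q} {R : Subgroup Q}
    (hT : H976.Target0 (H976.lvF f B {q₀}) c R) {ρ : Q} (hρ : ρ ∈ R)
    (O : Set (unitary (BE B (KS k S)))) (hO : O ∈ 𝓝 (1 : unitary (BE B (KS k S)))) :
    ∃ g : H976.UD D, ((g : Dˣ) : D) ∈ ordO B (OS k S) ∧ c g = ρ ∧
      ∃ z, posS B S g * (jQ B hq₀ H z)⁻¹ ∈ O := by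
  obtain ⟨g, h1, -, h3, z, hz⟩ := exists_gam f B q₀ hq₀ (jQ B hq₀ H)
    (fun x => Matrix.det (prQ B hq₀ H x : Matrix (Fin n) (Fin n) (q₀.adicCompletion k)) = 1)
    (fun O hO => by
      obtain ⟨η, hη, h⟩ := off_near_det (⟨q₀, hq₀⟩ : S) H hO
      exact ⟨η, hη, fun x h4 h5 h6 => h x h4 (fun v hv i => h5 v (fun h7 =>
        hv (Subtype.ext h7)) i) h6⟩)
    (fun g hg => by
      have h4 : (prQ B hq₀ H (iotaU B (KS k S) (H976.UD D) (fun _ h => h) g) :
          Matrix (Fin n) (Fin n) (q₀.adicCompletion k)) = H.f ((g : Dˣ) : D) :=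
        pr_j _ H _ rfl
      rw [h4]
      exact det_split f hn hdeg φ H.f hφ ((H976.mem_GD f).1 hg)) hT hO hρ
  exact ⟨g, h3.1, h1, z, hz⟩

/-- **`hlim` for a target group**, with helper674's maps `T b`, `b ∈ k`. -/
theorem hlim_target {δ : D} (hC : H674.Pair.Chart (H976.UD D) δ)
    [CharZero K] [FiniteDimensional K D] [Algebra.IsCentral K D] (hn : 1 < n)
    (hdeg : finrank K D = n ^ 2) (φ₀ : K →+* q₀.adicCompletion k)
    (hφ₀ : ∀ c : K, H.f (algebraMap K D c) = algebraMap (q₀.adicCompletion k) _ (φ₀ c))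
    {Q : Type*} [Group Q] {c : H976.UD D →* Q} {R : Subgroup Q}
    (hT : H976.Target0 (H976.lvF f B {q₀}) c R) {ρ : Q} (hρ : ρ ∈ R) (b : k)
    (φ : C_c(unitary (BE B (KS k S)), ℝ)) (hφ : tsupport φ ⊆ X0Q B hq₀ H) (a a' : Q) :
    Tendsto (fun x : ℝ =>
      ∑' y : H976.UD D, (x - 1) * denS B S y ^ (-x) *
        ({y : H976.UD D | c y = a ∧ c (hC.T (algebraMap k D b) y) = a'}.indicator 1 y *
          φ (posS B S y)) -
      ∑' y : H976.UD D, (x - 1) * denS B S y ^ (-x) *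
        ({y : H976.UD D | c y = ρ * a * ρ⁻¹ ∧
          c (hC.T (algebraMap k D b) y) = ρ * a' * ρ⁻¹}.indicator 1 y *
          φ (posS B S y))) (𝓝[>] 1) (𝓝 0) := by
  have := hT.fin
  have hb : star (algebraMap k D b) = algebraMap k D b := by
    have h1 : star (b • (1 : D)) = b • star (1 : D) := StarLin.star_smul' (k := k) (A := D) b 1
    rwa [star_one, ← Algebra.algebraMap_eq_smul_one] at h1
  have hne : δ ≠ star δ := by
    intro h
    rw [hC.star_del] at h
    have h1 : (2 : D) * δ = 0 := by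
      rw [two_mul]
      nth_rewrite 2 [h]
      exact add_neg_cancel δ
    rcases mul_eq_zero.1 h1 with h2 | h2
    · exact hC.two h2
    · exact hC.ne h2
  exact hlim_Q B hq₀ H hn hC.comm hne c (fun y => hC.T (algebraMap k D b) y)
    (fun g y => hC.T_central_apply hb (fun x => Algebra.commutes b x) g y) ρ
    (hrho_target B hq₀ H f (by omega) hdeg φ₀ hφ₀ hT hρ) φ hφ a a'

end target

end Vale.Agent.P011.H261
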