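import Vale.Agent.P011.H966.PosProd

/-!
# Positivity with commuting translations

`L` acts measure preservingly on `X`, `T : X → X` preserves the measure and commutes with `L`:
`∫ f * ∑_{v} f (v T x) ≤ ∫ f * ∑_v f (v x)`.  Consequence: for subgroups `K' ≤ K₀` of a second
group `G₂`, `K'` normal in `K₀`, the weighted autocorrelation restricted to `K'` is at least
`[K₀ : K']⁻¹` times the one restricted to `K₀`.
-/

namespace Vale.Agent.P011.H261

open MeasureTheory ENNReal H966

section comm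

variable {L X : Type*} [Group L] [Countable L] [MeasurableSpace X] [MulAction L X]
  [MeasurableConstSMul L X] {μ : Measure X} [SMulInvariantMeasure L X μ]

theorem comm_le (L₀ : Subgroup L) {f : X → ℝ≥0∞} (hf : Measurable f) {T : X → X}
    (hT : MeasurePreserving T μ μ) (hc : ∀ (v : L₀) x, T ((v : L) • x) = (v : L) • T x) :
    ∫⁻ x, f x * orb L₀ f (T x) ∂μ ≤ ∫⁻ x, f x * orb L₀ f x ∂μ := by
  by_cases htop : ∫⁻ x, f x * orb L₀ f x ∂μ = ∞
  · rw [htop]; exact le_top
  have hm := measurable_orb L₀ hf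
  have horbT : ∀ (g : X → ℝ≥0∞) x, orb L₀ (fun y => g (T y)) x = orb L₀ g (T x) := by
    intro g x
    unfold orb
    exact tsum_congr fun v => congrArg g (hc v x)
  have hfin0 : ∀ᵐ x ∂μ, f x ≠ 0 → orb L₀ f x ≠ ∞ := by
    have := ae_lt_top (hf.mul hm) htop
    filter_upwards [this] with x hx h0 hi
    simp [hi, ENNReal.mul_top h0] at hx
  have hfin : ∀ᵐ x ∂μ, orb L₀ f x ≠ ∞ := by
    have hall : ∀ᵐ x ∂μ, ∀ v : L₀, f ((v : L) • x) ≠ 0 → orb L₀ f ((v : L) • x) ≠ ∞ := by
      rw [ae_all_iff]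
      intro v
      exact (measurePreserving_smul (v : L) μ).quasiMeasurePreserving.ae hfin0
    filter_upwards [hall] with x hx hi
    have : ∀ v : L₀, f ((v : L) • x) = 0 := by
      intro v
      by_contra h
      exact hx v h (by rw [orb_smul]; exact hi)
    have h0 : orb L₀ f x = 0 := by
      unfold orb; simp [this]
    rw [h0] at hi
    exact absurd hi (by simp)
  set ψ : X → ℝ≥0∞ := fun x => f x / orb L₀ f x with hψdef
  have hψ : Measurable ψ := hf.div hm
  have hψF : ∀ᵐ x ∂μ, ψ x * orb L₀ f x = f x := by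
    filter_upwards [hfin] with x hx
    by_cases h0 : orb L₀ f x = 0
    · have : f x = 0 := le_antisymm (h0 ▸ le_orb L₀ f x) zero_le
      simp [h0, this]
    · exact ENNReal.div_mul_cancel h0 hx
  have horbψ : ∀ x, orb L₀ f x ≠ 0 → orb L₀ f x ≠ ∞ → orb L₀ ψ x = 1 := by
    intro x h0 hx
    have : orb L₀ ψ x = (orb L₀ f x)⁻¹ * orb L₀ f x := by
      have e : orb L₀ ψ x = ∑' v : L₀, (orb L₀ f x)⁻¹ * f ((v : L) • x) := by
        refine tsum_congr fun v => ?_
        simp only [hψdef]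
        rw [orb_smul, ENNReal.div_eq_inv_mul]
      rw [e, ENNReal.tsum_mul_left]
      rfl
    rw [this, ENNReal.inv_mul_cancel h0 hx]
  have horbψ0 : ∀ x, orb L₀ f x = 0 → orb L₀ ψ x = 0 := by
    intro x h0
    unfold orb at h0 ⊢
    rw [ENNReal.tsum_eq_zero] at h0 ⊢
    intro v
    simp [hψdef, h0 v]
  have h1 : ∀ᵐ x ∂μ, orb L₀ ψ x ≤ 1 := by
    filter_upwards [hfin] with x hx
    by_cases h0 : orb L₀ f x = 0
    · rw [horbψ0 x h0]; exact zero_le
    · rw [horbψ x h0 hx]
  have hmc : Measurable (fun x => orb L₀ f (T x)) := hm.comp hT.measurable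
  have key : ∫⁻ x, ψ x * (orb L₀ f (T x) * orb L₀ f (T x)) ∂μ
      ≤ ∫⁻ x, f x * orb L₀ f x ∂μ := by
    have := unfold_le (μ := μ) L₀ (ψ := ψ) (ψ' := fun x => ψ (T x))
      (G := fun x => orb L₀ f (T x) * orb L₀ f (T x)) hψ
      (hψ.comp hT.measurable) (hmc.mul hmc) ?_ h1 ?_
    · refine this.trans ?_
      have e := hT.lintegral_comp
        (f := fun x => ψ x * (orb L₀ f x * orb L₀ f x)) (hψ.mul (hm.mul hm))
      rw [e]
      refine lintegral_mono_ae ?_
      filter_upwards [hψF] with x hx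
      rw [← mul_assoc, hx]
    · intro v x
      simp only [hc v x, orb_smul]
    · have hfinc : ∀ᵐ x ∂μ, orb L₀ f (T x) ≠ ∞ := hT.quasiMeasurePreserving.ae hfin
      filter_upwards [hfinc] with x hx hne
      have h0 : orb L₀ f (T x) ≠ 0 := by
        intro h; simp [h] at hne
      rw [horbT, horbψ (T x) h0 hx]
  have hm1 : Measurable (fun x => f x * orb L₀ f (T x)) := hf.mul hmc
  have hm2 : Measurable (fun x => ψ x * (orb L₀ f x * orb L₀ f x)) := hψ.mul (hm.mul hm)
  have two : 2 * ∫⁻ x, f x * orb L₀ f (T x) ∂μ ≤ 2 * ∫⁻ x, f x * orb L₀ f x ∂μ := by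
    calc 2 * ∫⁻ x, f x * orb L₀ f (T x) ∂μ
        = ∫⁻ x, 2 * (f x * orb L₀ f (T x)) ∂μ := by
          rw [lintegral_const_mul _ hm1]
      _ ≤ ∫⁻ x, ψ x * (orb L₀ f x * orb L₀ f x)
            + ψ x * (orb L₀ f (T x) * orb L₀ f (T x)) ∂μ := by
          refine lintegral_mono_ae ?_
          filter_upwards [hψF] with x hx
          rw [← hx, ← mul_add]
          calc 2 * (ψ x * orb L₀ f x * orb L₀ f (T x))
              = ψ x * (2 * (orb L₀ f x * orb L₀ f (T x))) := by ring
            _ ≤ _ := by gcongr; exact two_mul_le _ _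
      _ = ∫⁻ x, ψ x * (orb L₀ f x * orb L₀ f x) ∂μ
            + ∫⁻ x, ψ x * (orb L₀ f (T x) * orb L₀ f (T x)) ∂μ := by
          rw [lintegral_add_left hm2]
      _ ≤ ∫⁻ x, f x * orb L₀ f x ∂μ + ∫⁻ x, f x * orb L₀ f x ∂μ := by
          refine add_le_add ?_ key
          refine lintegral_mono_ae ?_
          filter_upwards [hψF] with x hx
          rw [← mul_assoc, hx]
      _ = _ := by rw [two_mul]
  exact (ENNReal.mul_le_mul_iff_right (by simp) (by simp)).1 two

end comm

section prod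

variable {L G M : Type*} [Group L] [Countable L] [MeasurableSpace G] [MulAction L G]
  [MeasurableConstSMul L G] [MulAction L M] [Countable M]

/-- the weight between `I` and its translate by `T`. -/
noncomputable def wtT (ω : M → ℝ≥0∞) (I : Set M) (T : M → M) (v : L) : ℝ≥0∞ :=
  ∑' m : M, ω m * (I.indicator 1 m * I.indicator 1 (v • T m))

/-- **Commuting translations on the discrete factor.** -/
theorem comm_prod (μ : Measure G) [SFinite μ] [SMulInvariantMeasure L G μ]
    {κ : G → ℝ≥0∞} (hκ : Measurable κ)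
    (ω : M → ℝ≥0∞) (hω : ∀ (v : L) m, ω (v • m) = ω m) (hωt : ∀ m, ω m ≠ ∞) (I : Set M)
    (T : M ≃ M) (hTω : ∀ m, ω (T m) = ω m) (hTc : ∀ (v : L) m, T (v • m) = v • T m) :
    ∑' v : L, wtT ω I T v * autoc μ κ v ≤ ∑' v : L, wt ω I v * autoc μ κ v := by
  let _ : MeasurableSpace M := ⊤
  have : MeasurableSingletonClass M := ⟨fun _ => trivial⟩
  have : MeasurableConstSMul L M := ⟨fun _ => measurable_from_top⟩
  set ν : Measure M := Measure.sum fun m => ω m • Measure.dirac m with hν
  have : ∀ m, IsFiniteMeasure (ω m • Measure.dirac m : Measure M) := fun m =>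
    ⟨by
      rw [Measure.smul_apply, smul_eq_mul]
      exact ENNReal.mul_lt_top (lt_top_iff_ne_top.2 (hωt m)) (by simp)⟩
  have : SFinite ν := by rw [hν]; infer_instance
  have hlin : ∀ g : M → ℝ≥0∞, ∫⁻ m, g m ∂ν = ∑' m, ω m * g m := by
    intro g
    rw [hν, lintegral_sum_measure]
    refine tsum_congr fun m => ?_
    rw [lintegral_smul_measure, lintegral_dirac, smul_eq_mul]
  have hinv : ∀ (e : M ≃ M), (∀ m, ω (e m) = ω m) → MeasurePreserving e ν ν := by
    intro e he
    refine ⟨measurable_from_top, ?_⟩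
    refine Measure.ext fun s _ => ?_
    rw [Measure.map_apply measurable_from_top MeasurableSet.of_discrete,
      ← lintegral_indicator_one (MeasurableSet.of_discrete),
      ← lintegral_indicator_one (MeasurableSet.of_discrete (s := s)), hlin, hlin,
      ← e.tsum_eq (fun m => ω m * s.indicator 1 m)]
    refine tsum_congr fun m => ?_
    simp only [he]
    rfl
  have : SMulInvariantMeasure L M ν := by
    refine ⟨fun v s _ => ?_⟩
    exact (hinv (MulAction.toPerm v) (hω v)).measure_preimage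
      MeasurableSet.of_discrete.nullMeasurableSet
  have : MeasurableConstSMul L (G × M) :=
    ⟨fun v => (measurable_const_smul v).prodMap (measurable_const_smul v)⟩
  have : SMulInvariantMeasure L (G × M) (μ.prod ν) := by
    refine ⟨fun v s hs => ?_⟩
    have := (measurePreserving_smul v μ).prod (measurePreserving_smul v ν)
    exact this.measure_preimage hs.nullMeasurableSet
  have hI : ∀ s : Set M, Measurable (s.indicator (1 : M → ℝ≥0∞)) := fun _ => measurable_from_top
  set f : G × M → ℝ≥0∞ := fun p => κ p.1 * I.indicator 1 p.2 with hf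
  have hfm : Measurable f := (hκ.comp measurable_fst).mul ((hI I).comp measurable_snd)
  -- general term
  have hterm : ∀ (S : M ≃ M), Measurable (Prod.map (id : G → G) S) → ∀ v : L,
      ∫⁻ p, f p * f (v • (Prod.map id S p)) ∂(μ.prod ν) = wtT ω I S v * autoc μ κ v := by
    intro S hS v
    have hm : Measurable (fun p : G × M => f p * f (v • (Prod.map id S p))) :=
      hfm.mul (hfm.comp ((measurable_const_smul v).comp hS))
    rw [lintegral_prod_symm' _ hm, hlin]
    unfold wtT
    rw [← ENNReal.tsum_mul_right]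
    refine tsum_congr fun m => ?_
    have : ∫⁻ h, f (h, m) * f (v • (Prod.map id S (h, m))) ∂μ
        = ∫⁻ h, (I.indicator 1 m * I.indicator 1 (v • S m)) * (κ h * κ (v • h)) ∂μ := by
      refine lintegral_congr fun h => ?_
      simp only [hf, Prod.map_apply, Prod.smul_mk, id]
      ring
    have hk2 : Measurable (fun h => κ h * κ (v • h)) :=
      hκ.mul (hκ.comp (measurable_const_smul v))
    rw [this, lintegral_const_mul _ hk2]
    unfold autoc
    ring
  have hTp : MeasurePreserving (Prod.map (id : G → G) T) (μ.prod ν) (μ.prod ν) :=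
    (MeasurePreserving.id μ).prod (hinv T hTω)
  have h1p : MeasurePreserving (Prod.map (id : G → G) (Equiv.refl M)) (μ.prod ν) (μ.prod ν) :=
    (MeasurePreserving.id μ).prod (hinv (Equiv.refl M) fun _ => rfl)
  have hsum : ∀ (S : M ≃ M), MeasurePreserving (Prod.map (id : G → G) S) (μ.prod ν) (μ.prod ν) →
      ∫⁻ x, f x * orb (⊤ : Subgroup L) f (Prod.map id S x) ∂(μ.prod ν) =
        ∑' v : L, wtT ω I S v * autoc μ κ v := by
    intro S hS
    rw [← tsum_congr (hterm S hS.measurable), ← lintegral_tsum]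
    · refine lintegral_congr fun x => ?_
      rw [ENNReal.tsum_mul_left]
      congr 1
      unfold orb
      exact (Subgroup.topEquiv (G := L)).toEquiv.tsum_eq
        (fun v : L => f (v • (Prod.map id S x)))
    · intro v
      exact (hfm.mul (hfm.comp ((measurable_const_smul v).comp hS.measurable))).aemeasurable
  have key := comm_le (μ := μ.prod ν) (⊤ : Subgroup L) hfm hTp (by
    rintro v ⟨g, m⟩
    simp [hTc])
  have h1 := hsum T hTp
  have h2 := hsum (Equiv.refl M) h1p
  have h3 : ∀ x : G × M, Prod.map (id : G → G) (Equiv.refl M) x = x := fun x => rfl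
  simp_rw [h3] at h2
  rw [h1, h2] at key
  exact key

end prod

section scale

variable {L G M G₂ : Type*} [Group L] [Countable L] [MeasurableSpace G] [MulAction L G]
  [MeasurableConstSMul L G] [MulAction L M] [Countable M] [Group G₂]

open Classical in
/-- The weighted autocorrelation restricted to the elements `v` with `p₂ v ∈ S`. -/
noncomputable def wsum (μ : Measure G) (κ : G → ℝ≥0∞) (ω : M → ℝ≥0∞) (I : Set M)
    (p₂ : L →* G₂) (S : Set G₂) (v : L) : ℝ≥0∞ :=
  if p₂ v ∈ S then wt ω I v * autoc μ κ v else 0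

/-- **LOW at one scale implies LOW at all scales.** -/
theorem low_scale (μ : Measure G) [SFinite μ] [SMulInvariantMeasure L G μ]
    {κ : G → ℝ≥0∞} (hκ : Measurable κ)
    (ω : M → ℝ≥0∞) (hω : ∀ (v : L) m, ω (v • m) = ω m) (hωt : ∀ m, ω m ≠ ∞) (I : Set M)
    (p₂ : L →* G₂) {K₀ K' : Subgroup G₂}
    (hn : ∀ g ∈ K₀, g ∈ Subgroup.normalizer (K' : Set G₂)) [Countable (G₂ ⧸ K')]
    (hfin : K'.relIndex K₀ ≠ 0) :
    ∑' v : L, wsum μ κ ω I p₂ K₀ v ≤ K'.relIndex K₀ * ∑' v : L, wsum μ κ ω I p₂ K' v := by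
  classical
  let _ : MulAction L (G₂ ⧸ K') := MulAction.compHom _ p₂
  have hact : ∀ (v : L) (g : G₂), v • (g : G₂ ⧸ K') = ((p₂ v * g : G₂) : G₂ ⧸ K') :=
    fun v g => rfl
  set ω' : M × (G₂ ⧸ K') → ℝ≥0∞ := fun p => ω p.1 with hω'
  set I' : Set (M × (G₂ ⧸ K')) := I ×ˢ {((1 : G₂) : G₂ ⧸ K')} with hI'
  have hind : ∀ (m : M) (q : G₂ ⧸ K'), I'.indicator (1 : M × (G₂ ⧸ K') → ℝ≥0∞) (m, q) =
      I.indicator 1 m * (if q = ((1 : G₂) : G₂ ⧸ K') then 1 else 0) := by
    intro m q
    rw [hI']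
    by_cases h1 : m ∈ I <;> by_cases h2 : q = ((1 : G₂) : G₂ ⧸ K') <;>
      simp [Set.indicator, h1, h2]
  -- the right translation
  have hnop : ∀ g ∈ K₀, MulOpposite.op g ∈ (Subgroup.normalizer (K' : Set G₂)).op := by
    intro g hg
    exact hn g hg
  let R : (g : G₂) → g ∈ K₀ → (G₂ ⧸ K') ≃ (G₂ ⧸ K') := fun g hg =>
    MulAction.toPerm (⟨MulOpposite.op g, hnop g hg⟩ : (Subgroup.normalizer (K' : Set G₂)).op)
  have hR : ∀ g (hg : g ∈ K₀) (x : G₂), R g hg (x : G₂ ⧸ K') = ((x * g : G₂) : G₂ ⧸ K') :=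
    fun g hg x => rfl
  have hcommR : ∀ g (hg : g ∈ K₀) (v : L) (q : G₂ ⧸ K'), R g hg (v • q) = v • R g hg q := by
    intro g hg v q
    induction q using QuotientGroup.induction_on with
    | H x => rw [hact, hR g hg, hR g hg, hact, mul_assoc]
  have hone : ∀ x : G₂, ((x : G₂) : G₂ ⧸ K') = ((1 : G₂) : G₂ ⧸ K') ↔ x ∈ K' := by
    intro x
    rw [eq_comm, QuotientGroup.eq]
    simp
  have hW : ∀ g (hg : g ∈ K₀) (v : L),
      wtT ω' I' ((Equiv.refl M).prodCongr (R g hg)) v =
        if p₂ v * g ∈ K' then wt ω I v else 0 := by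
    intro g hg v
    unfold wtT wt
    rw [ENNReal.tsum_prod']
    have h1 : ∀ m : M, ∑' q : G₂ ⧸ K', ω' (m, q) * (I'.indicator 1 (m, q) *
        I'.indicator 1 (v • ((Equiv.refl M).prodCongr (R g hg)) (m, q))) =
        if p₂ v * g ∈ K' then ω m * (I.indicator 1 m * I.indicator 1 (v • m)) else 0 := by
      intro m
      rw [tsum_eq_single ((1 : G₂) : G₂ ⧸ K')]
      · have h2 : v • ((Equiv.refl M).prodCongr (R g hg)) (m, ((1 : G₂) : G₂ ⧸ K')) =
            (v • m, ((p₂ v * g : G₂) : G₂ ⧸ K')) := by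
          simp only [Equiv.prodCongr_apply, Prod.map_apply, Equiv.refl_apply, Prod.smul_mk,
            hR g hg, hact, one_mul]
        rw [h2, hind, hind]
        by_cases h3 : p₂ v * g ∈ K'
        · have h4 := (hone _).2 h3
          simp [h3, h4, hω']
        · have h4 := mt (hone _).1 h3
          simp [h3, h4]
      · intro q hq
        rw [hind, if_neg hq]
        simp
    simp_rw [h1]
    split_ifs <;> simp
  have hW1 : ∀ v : L, wt ω' I' v = if p₂ v ∈ K' then wt ω I v else 0 := by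
    intro v
    have h1 := hW 1 K₀.one_mem v
    rw [mul_one] at h1
    rw [← h1]
    unfold wt wtT
    refine tsum_congr fun p => ?_
    obtain ⟨m, q⟩ := p
    induction q using QuotientGroup.induction_on with
    | H x =>
      have h2 : ((Equiv.refl M).prodCongr (R 1 K₀.one_mem)) (m, (x : G₂ ⧸ K')) =
          (m, (x : G₂ ⧸ K')) := by
        simp only [Equiv.prodCongr_apply, Prod.map_apply, Equiv.refl_apply,
          hR 1 K₀.one_mem, mul_one]
      rw [h2]
  -- one translation
  have h1 : ∀ g (_ : g ∈ K₀), ∑' v : L, (if p₂ v * g ∈ K' then wt ω I v * autoc μ κ v else 0) ≤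
      ∑' v : L, wsum μ κ ω I p₂ K' v := by
    intro g hg
    have h2 := comm_prod μ hκ ω' (fun v p => hω v p.1) (fun p => hωt p.1) I'
      ((Equiv.refl M).prodCongr (R g hg)) (fun p => rfl) (by
        rintro v ⟨m, q⟩
        simp only [Prod.smul_mk, Equiv.prodCongr_apply, Prod.map_apply, Equiv.refl_apply,
          hcommR g hg])
    simp_rw [hW g hg, hW1] at h2
    unfold wsum
    simpa only [ite_mul, zero_mul, SetLike.mem_coe] using h2
  -- sum over the cosets
  have hfi : (K'.subgroupOf K₀).FiniteIndex := ⟨hfin⟩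
  have : Fintype (K₀ ⧸ K'.subgroupOf K₀) := (K'.subgroupOf K₀).fintypeQuotientOfFiniteIndex
  calc ∑' v : L, wsum μ κ ω I p₂ K₀ v
      ≤ ∑' v : L, ∑ q : K₀ ⧸ K'.subgroupOf K₀,
        (if p₂ v * (q.out : K₀) ∈ K' then wt ω I v * autoc μ κ v else 0) := by
        refine ENNReal.tsum_le_tsum fun v => ?_
        unfold wsum
        split_ifs with hv
        · set q : K₀ ⧸ K'.subgroupOf K₀ :=
            QuotientGroup.mk (⟨(p₂ v)⁻¹, K₀.inv_mem hv⟩ : K₀) with hq
          refine le_trans (le_of_eq ?_) (Finset.single_le_sum (fun _ _ => zero_le)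
            (Finset.mem_univ q))
          rw [if_pos]
          have h3 : ((q.out : K₀) : K₀ ⧸ K'.subgroupOf K₀) = q := QuotientGroup.out_eq' q
          rw [hq, eq_comm, QuotientGroup.eq] at h3
          have h4 := Subgroup.mem_subgroupOf.1 h3
          simpa using h4
        · exact zero_le
    _ = ∑ q : K₀ ⧸ K'.subgroupOf K₀, ∑' v : L,
        (if p₂ v * (q.out : K₀) ∈ K' then wt ω I v * autoc μ κ v else 0) := by
        rw [Summable.tsum_finsetSum fun _ _ => ENNReal.summable]
    _ ≤ ∑ q : K₀ ⧸ K'.subgroupOf K₀, ∑' v : L, wsum μ κ ω I p₂ K' v :=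
        Finset.sum_le_sum fun q _ => h1 _ (q.out).2
    _ = _ := by
        rw [Finset.sum_const, Finset.card_univ, nsmul_eq_mul]
        congr 2
        rw [Subgroup.relIndex, Subgroup.index, Nat.card_eq_fintype_card]

/-- **Positivity at the scale `K'`.** -/
theorem pos_scale (μ : Measure G) [SFinite μ] [SMulInvariantMeasure L G μ]
    (L₀ : Subgroup L) [L₀.Normal] [L₀.FiniteIndex]
    {κ : G → ℝ≥0∞} (hκ : Measurable κ)
    (ω : M → ℝ≥0∞) (hω : ∀ (v : L) m, ω (v • m) = ω m) (hωt : ∀ m, ω m ≠ ∞) (I : Set M)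
    (p₂ : L →* G₂) (K' : Subgroup G₂) [Countable (G₂ ⧸ K')] :
    ∑' v : L, wsum μ κ ω I p₂ K' v ≤ L₀.index * ∑' v : L₀, wsum μ κ ω I p₂ K' (v : L) := by
  classical
  let _ : MulAction L (G₂ ⧸ K') := MulAction.compHom _ p₂
  have hact : ∀ (v : L) (g : G₂), v • (g : G₂ ⧸ K') = ((p₂ v * g : G₂) : G₂ ⧸ K') :=
    fun v g => rfl
  set ω' : M × (G₂ ⧸ K') → ℝ≥0∞ := fun p => ω p.1 with hω'
  set I' : Set (M × (G₂ ⧸ K')) := I ×ˢ {((1 : G₂) : G₂ ⧸ K')} with hI'
  have hind : ∀ (m : M) (q : G₂ ⧸ K'), I'.indicator (1 : M × (G₂ ⧸ K') → ℝ≥0∞) (m, q) =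
      I.indicator 1 m * (if q = ((1 : G₂) : G₂ ⧸ K') then 1 else 0) := by
    intro m q
    rw [hI']
    by_cases h1 : m ∈ I <;> by_cases h2 : q = ((1 : G₂) : G₂ ⧸ K') <;>
      simp [Set.indicator, h1, h2]
  have hone : ∀ x : G₂, ((x : G₂) : G₂ ⧸ K') = ((1 : G₂) : G₂ ⧸ K') ↔ x ∈ K' := by
    intro x
    rw [eq_comm, QuotientGroup.eq]
    simp
  have hW1 : ∀ v : L, wt ω' I' v = if p₂ v ∈ K' then wt ω I v else 0 := by
    intro v
    unfold wt
    rw [ENNReal.tsum_prod']
    have h1 : ∀ m : M, ∑' q : G₂ ⧸ K', ω' (m, q) * (I'.indicator 1 (m, q) *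
        I'.indicator 1 (v • (m, q))) =
        if p₂ v ∈ K' then ω m * (I.indicator 1 m * I.indicator 1 (v • m)) else 0 := by
      intro m
      rw [tsum_eq_single ((1 : G₂) : G₂ ⧸ K')]
      · rw [Prod.smul_mk, hact, mul_one, hind, hind]
        by_cases h3 : p₂ v ∈ K'
        · have h4 := (hone _).2 h3
          simp [h3, h4, hω']
        · have h4 := mt (hone _).1 h3
          simp [h3, h4]
      · intro q hq
        rw [hind, if_neg hq]
        simp
    simp_rw [h1]
    split_ifs <;> simp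
  have h2 := pos_prod μ L₀ hκ ω' (fun v p => hω v p.1) (fun p => hωt p.1) I'
  simp_rw [hW1] at h2
  unfold wsum
  simpa only [ite_mul, zero_mul, SetLike.mem_coe] using h2

end scale

end Vale.Agent.P011.H261
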