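import Vale.Agent.P011.H261.Lim

/-!
# P011, module H261-1 (LIM), part 2: equidistribution of the colours

`M s r` (`s : ι`, `r : R`) Borel measures on a locally compact second countable group `G`, a
subgroup `L` with a homomorphism `c : L →* R`, `(g ↦ a g b)_* (M s r) = M s (c a * r * c b)`.
If every bounded measurable function, bi-invariant under `ker c`, is right invariant under some
`γ` with `c γ = ρ`, for every `ρ`, then asymptotically all colours have the same mass.
-/

set_option linter.unusedSectionVars false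

open MeasureTheory Filter Topology CompactlySupported
open scoped ENNReal NNReal

namespace Vale.Agent.P011.H261

variable {G : Type*} [Group G] [TopologicalSpace G] [IsTopologicalGroup G] [T2Space G]
  [LocallyCompactSpace G] [MeasurableSpace G] [BorelSpace G] [SecondCountableTopology G]

/-- the homeomorphism `g ↦ a g b` -/
def TT (a b : G) : G ≃ₜ G := (Homeomorph.mulLeft a).trans (Homeomorph.mulRight b)

@[simp] theorem TT_apply (a b g : G) : TT a b g = a * g * b := rfl

@[simp] theorem TT_symm_apply (a b g : G) : (TT a b).symm g = a⁻¹ * g * b⁻¹ := by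
  rw [Homeomorph.symm_apply_eq]
  simp [mul_assoc]

theorem measurePreserving_TT (μ : Measure G) [μ.IsMulLeftInvariant] [μ.IsMulRightInvariant]
    (a b : G) : MeasurePreserving (TT a b) μ μ :=
  (measurePreserving_mul_right μ b).comp (measurePreserving_mul_left μ a)

theorem map_withDensity_TT (μ : Measure G) [μ.IsMulLeftInvariant] [μ.IsMulRightInvariant]
    (a b : G) {E : G → ℝ≥0∞} (hE : Measurable E) :
    (μ.withDensity E).map (TT a b) = μ.withDensity (fun g => E (a⁻¹ * g * b⁻¹)) := by
  have hT : Measurable (TT a b) := (TT a b).continuous.measurable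
  have hmp := measurePreserving_TT μ a b
  refine Measure.ext fun s hs => ?_
  rw [Measure.map_apply hT hs, withDensity_apply _ (hT hs), withDensity_apply _ hs]
  have hE' : Measurable (fun g => E (a⁻¹ * g * b⁻¹)) := by
    have := hE.comp (TT a b).symm.continuous.measurable
    simpa [Function.comp_def] using this
  have := hmp.setLIntegral_comp_preimage hs hE'
  rw [← this]
  refine lintegral_congr fun g => ?_
  simp [mul_assoc]

/-- composition of a compactly supported function with `TT a b` -/
def compT (f : C_c(G, ℝ)) (a b : G) : C_c(G, ℝ) :=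
  ⟨⟨fun g => f (TT a b g), f.continuous.comp (TT a b).continuous⟩,
    f.hasCompactSupport.comp_homeomorph (TT a b)⟩

@[simp] theorem compT_apply (f : C_c(G, ℝ)) (a b g : G) : compT f a b g = f (a * g * b) := rfl

theorem regular_withDensity (μ : Measure G) [μ.Regular] {E : G → ℝ≥0} {C : ℝ≥0}
    (hEC : ∀ x, E x ≤ C) : (μ.withDensity (fun x => (E x : ℝ≥0∞))).Regular := by
  have h1 : μ.withDensity (fun x => (E x : ℝ≥0∞)) ≤ C • μ := by
    refine Measure.le_iff.2 fun s hs => ?_
    rw [withDensity_apply _ hs, Measure.smul_apply, ENNReal.smul_def, smul_eq_mul,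
      ← setLIntegral_const]
    exact setLIntegral_mono' hs fun x _ => ENNReal.coe_le_coe.2 (hEC x)
  have h2 : IsFiniteMeasureOnCompacts (μ.withDensity (fun x => (E x : ℝ≥0∞))) := by
    refine ⟨fun K hK => ?_⟩
    refine (h1 K).trans_lt ?_
    rw [Measure.smul_apply, ENNReal.smul_def, smul_eq_mul]
    exact ENNReal.mul_lt_top ENNReal.coe_lt_top hK.measure_lt_top
  have : IsLocallyFiniteMeasure (μ.withDensity (fun x => (E x : ℝ≥0∞))) :=
    isLocallyFiniteMeasure_of_isFiniteMeasureOnCompacts
  infer_instance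

variable {R : Type*} [Group R] (L : Subgroup G) (c : L →* R)

/-- the black box (Mautner lemma + closure) for the colour `ρ`: there is `γ ∈ L` of colour `ρ`
such that each bounded measurable function which is bi-invariant under `ker c` is right invariant
under `γ`. -/
def BB (μ : Measure G) (ρ : R) : Prop :=
  ∃ γ : L, c γ = ρ ∧ ∀ E : G → ℝ, Measurable E → (∃ B, ∀ g, |E g| ≤ B) →
    (∀ a b : L, c a = 1 → c b = 1 → ∀ g, E (a * g * b) = E g) →
      ∀ᵐ g ∂μ, E (g * γ) = E g

variable {ι : Type*} {F : Filter ι} {M : ι → R → Measure G} {Z : ι → ℝ} {C : ℝ≥0}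
  {μ : Measure G}

/-- the equivariance hypothesis -/
def EQ (M : ι → R → Measure G) : Prop :=
  ∀ (a b : L) (r : R) (s : ι), (M s r).map (fun g => (a : G) * g * b) = M s (c a * r * c b)

/-- all limit densities at once, with their exact equivariance -/
theorem exists_densities [Finite R] [Countable L] [μ.Regular] [μ.IsMulLeftInvariant]
    [μ.IsMulRightInvariant] [∀ s r, IsFiniteMeasureOnCompacts (M s r)]
    (hUB : ∀ r, UB μ F (fun s => M s r) Z C) (hZ : ∀ s, 0 < Z s) (hEQ : EQ L c M)
    {U : Ultrafilter ι} (hU : (U : Filter ι) ≤ F) :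
    ∃ E : R → G → ℝ, (∀ r, Measurable (E r)) ∧ (∀ r x, 0 ≤ E r x ∧ E r x ≤ C) ∧
      (∀ (a b : L) (r : R) (g : G), E (c a * r * c b) (a * g * b) = E r g) ∧
      ∀ (r : R) (f : C_c(G, ℝ)), Tendsto (fun s => (∫ x, f x ∂(M s r)) / Z s) U
        (𝓝 (∫ x, f x * E r x ∂μ)) := by
  classical
  choose E0 hm hC hlim using fun r => exists_limit_density (M := fun s => M s r) (hUB r) hZ hU
  have hreg : ∀ r, (μ.withDensity (fun x => (E0 r x : ℝ≥0∞))).Regular := fun r =>
    regular_withDensity μ (hC r)
  -- equivariance of the limit measures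
  have hmap : ∀ (a b : L) (r : R), (μ.withDensity (fun x => (E0 r x : ℝ≥0∞))).map (TT (a : G) b) =
      μ.withDensity (fun x => (E0 (c a * r * c b) x : ℝ≥0∞)) := by
    intro a b r
    have : ((μ.withDensity (fun x => (E0 r x : ℝ≥0∞))).map (TT (a : G) b)).Regular :=
      Measure.Regular.map _
    refine Measure.ext_of_integral_eq_on_compactlySupported fun f => ?_
    refine tendsto_nhds_unique ?_ (hlim (c a * r * c b) f)
    have h1 := hlim r (compT f (a : G) b)
    have h2 : ∫ x, f x ∂((μ.withDensity (fun x => (E0 r x : ℝ≥0∞))).map (TT (a : G) b)) =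
        ∫ x, compT f (a : G) b x ∂(μ.withDensity (fun x => (E0 r x : ℝ≥0∞))) :=
      integral_map_of_stronglyMeasurable (TT (a : G) b).continuous.measurable
        f.continuous.stronglyMeasurable
    rw [h2]
    refine h1.congr fun s => ?_
    congr 1
    rw [← hEQ a b r s]
    exact (integral_map_of_stronglyMeasurable (TT (a : G) b).continuous.measurable
      f.continuous.stronglyMeasurable).symm
  have hae : ∀ (a b : L) (r : R), ∀ᵐ g ∂μ, E0 (c a * r * c b) (a * g * b) = E0 r g := by
    intro a b r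
    have h1 := hmap a b r
    rw [map_withDensity_TT μ (a : G) b (E := fun x => (E0 r x : ℝ≥0∞))
      (measurable_coe_nnreal_ennreal.comp (hm r))] at h1
    have hT : Measurable (TT (a : G) b) := (TT (a : G) b).continuous.measurable
    have hTs : Measurable (TT (a : G) b).symm := (TT (a : G) b).symm.continuous.measurable
    have hm1 : Measurable (fun g : G => ((E0 r ((a : G)⁻¹ * g * (b : G)⁻¹) : ℝ≥0) : ℝ≥0∞)) := by
      have := (measurable_coe_nnreal_ennreal.comp (hm r)).comp hTs
      simpa [Function.comp_def] using this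
    have h2 := (withDensity_eq_iff_of_sigmaFinite hm1.aemeasurable
      (measurable_coe_nnreal_ennreal.comp (hm (c a * r * c b))).aemeasurable).1 h1
    have h3 := (measurePreserving_TT μ (a : G) b).quasiMeasurePreserving.ae h2
    filter_upwards [h3] with g hg
    have hg' : (E0 r ((a : G)⁻¹ * (a * g * b) * (b : G)⁻¹) : ℝ≥0∞) =
        E0 (c a * r * c b) (a * g * b) := hg
    have e : (a : G)⁻¹ * (a * g * b) * (b : G)⁻¹ = g := by group
    rw [e] at hg'
    exact (ENNReal.coe_injective hg').symm
  -- the good set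
  set Ω : Set G := {g | ∀ (p : L × L × R), E0 (c p.1 * p.2.2 * c p.2.1) (p.1 * g * p.2.1) =
    E0 p.2.2 g} with hΩ
  have : Countable (L × L × R) := by infer_instance
  have hΩm : MeasurableSet Ω := by
    rw [hΩ, Set.ofPred_forall]
    refine MeasurableSet.iInter fun p => ?_
    have hT : Measurable (TT (p.1 : G) p.2.1) := (TT (p.1 : G) p.2.1).continuous.measurable
    exact measurableSet_eq_fun ((hm _).comp hT) (hm _)
  have hΩae : ∀ᵐ g ∂μ, g ∈ Ω := by
    have : ∀ᵐ g ∂μ, ∀ p : L × L × R, E0 (c p.1 * p.2.2 * c p.2.1) (p.1 * g * p.2.1) =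
        E0 p.2.2 g := ae_all_iff.2 fun p => hae p.1 p.2.1 p.2.2
    exact this
  have hΩi : ∀ (a b : L) (g : G), g ∈ Ω → (a : G) * g * b ∈ Ω := by
    intro a b g hg
    rintro ⟨a', b', r⟩
    have h1 := hg (a' * a, b * b', (c a)⁻¹ * r * (c b)⁻¹)
    have h2 := hg (a, b, (c a)⁻¹ * r * (c b)⁻¹)
    simp only [map_mul, Subgroup.coe_mul] at h1 h2 ⊢
    have e1 : c a' * c a * ((c a)⁻¹ * r * (c b)⁻¹) * (c b * c b') = c a' * r * c b' := by group
    have e2 : c a * ((c a)⁻¹ * r * (c b)⁻¹) * c b = r := by group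
    have e3 : (a' : G) * a * g * (b * b') = a' * (a * g * b) * b' := by group
    rw [e1, e3] at h1
    rw [e2] at h2
    rw [h1, h2]
  have hΩi' : ∀ (a b : L) (g : G), (a : G) * g * b ∈ Ω ↔ g ∈ Ω := by
    intro a b g
    refine ⟨fun h => ?_, hΩi a b g⟩
    have := hΩi a⁻¹ b⁻¹ _ h
    have e : ((a⁻¹ : L) : G) * (a * g * b) * ((b⁻¹ : L) : G) = g := by
      simp only [Subgroup.coe_inv]; group
    rwa [e] at this
  refine ⟨fun r => Ω.indicator (fun g => (E0 r g : ℝ)), fun r => ?_, fun r x => ?_, ?_, ?_⟩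
  · exact (measurable_coe_nnreal_real.comp (hm r)).indicator hΩm
  · by_cases hx : x ∈ Ω
    · show 0 ≤ Ω.indicator (fun g => (E0 r g : ℝ)) x ∧ Ω.indicator (fun g => (E0 r g : ℝ)) x ≤ C
      rw [Set.indicator_of_mem hx]
      exact ⟨(E0 r x).coe_nonneg, NNReal.coe_le_coe.2 (hC r x)⟩
    · show 0 ≤ Ω.indicator (fun g => (E0 r g : ℝ)) x ∧ Ω.indicator (fun g => (E0 r g : ℝ)) x ≤ C
      rw [Set.indicator_of_notMem hx]
      exact ⟨le_rfl, C.coe_nonneg⟩
  · intro a b r g
    show Ω.indicator (fun g => (E0 (c a * r * c b) g : ℝ)) (a * g * b) =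
      Ω.indicator (fun g => (E0 r g : ℝ)) g
    by_cases hg : g ∈ Ω
    · rw [Set.indicator_of_mem hg, Set.indicator_of_mem (hΩi a b g hg)]
      exact congrArg _ (hg (a, b, r))
    · rw [Set.indicator_of_notMem hg, Set.indicator_of_notMem (fun h => hg ((hΩi' a b g).1 h))]
  · intro r f
    have h1 := hlim r f
    have h2 : ∫ x, f x ∂(μ.withDensity (fun x => (E0 r x : ℝ≥0∞))) =
        ∫ x, f x * Ω.indicator (fun g => (E0 r g : ℝ)) x ∂μ := by
      rw [integral_withDensity_eq_integral_smul (hm r)]
      refine integral_congr_ae ?_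
      filter_upwards [hΩae] with x hx
      rw [Set.indicator_of_mem hx, NNReal.smul_def, smul_eq_mul, mul_comm]
    rwa [h2] at h1

/-- **The colours `r` and `r * ρ` have asymptotically the same mass.** -/
theorem unif [Finite R] [Countable L] [μ.Regular] [μ.IsMulLeftInvariant]
    [μ.IsMulRightInvariant] [∀ s r, IsFiniteMeasureOnCompacts (M s r)]
    (hUB : ∀ r, UB μ F (fun s => M s r) Z C) (hZ : ∀ s, 0 < Z s) (hEQ : EQ L c M)
    {ρ : R} (hBB : BB L c μ ρ) (f : C_c(G, ℝ)) (r : R) :
    Tendsto (fun s => (∫ x, f x ∂(M s (r * ρ)) - ∫ x, f x ∂(M s r)) / Z s) F (𝓝 0) := by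
  rw [tendsto_iff_ultrafilter]
  intro U hU
  obtain ⟨E, hm, hC, heq, hlim⟩ := exists_densities L c hUB hZ hEQ hU
  obtain ⟨γ, hγ, hinv⟩ := hBB
  have h1 := hinv (E r) (hm r) ⟨C, fun g => by
    rw [abs_of_nonneg (hC r g).1]; exact (hC r g).2⟩ (fun a b ha hb g => by
      have := heq a b r g
      rwa [ha, hb, one_mul, mul_one] at this)
  have h2 : ∀ g, E (r * ρ) (g * γ) = E r g := by
    intro g
    have := heq 1 γ r g
    simpa [hγ] using this
  have h3 : ∀ᵐ g ∂μ, E (r * ρ) (g * γ) = E r (g * γ) := by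
    filter_upwards [h1] with g hg
    rw [h2, hg]
  have h4 : ∀ᵐ g ∂μ, E (r * ρ) g = E r g := by
    have h5 := (measurePreserving_mul_right μ (γ : G)⁻¹).quasiMeasurePreserving.ae h3
    filter_upwards [h5] with g hg
    simpa using hg
  have h6 : ∫ x, f x * E (r * ρ) x ∂μ = ∫ x, f x * E r x ∂μ := by
    refine integral_congr_ae ?_
    filter_upwards [h4] with x hx
    rw [hx]
  have h7 := (hlim (r * ρ) f).sub (hlim r f)
  rw [h6, sub_self] at h7
  refine h7.congr fun s => ?_
  rw [sub_div]

end Vale.Agent.P011.H261
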